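import Vale.Agent.P262.H998.LaySum

/-!
# P262: the dyadic layer sum in the form of the throughput assembly
-/

set_option linter.all false

open MeasureTheory ProbabilityTheory Set
open scoped ENNReal

namespace Vale.Agent.P262.H998

open Vale.Agent.P262.H941

/-- Gaussian mass of the layers from `a` on -/
noncomputable def pp (a : ℕ) : ℝ≥0∞ := gaussianReal 0 1 {t : ℝ | (2 : ℝ) ^ a ≤ 1 + |t|}

lemma tail_abs {x : ℝ} (hx : 0 ≤ x) :
    gaussianReal 0 1 {t : ℝ | x ≤ |t|} ≤ ENNReal.ofReal (2 * Real.exp (-(x ^ 2 / 2))) := by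
  have h0 : {t : ℝ | x ≤ |t|} ⊆ Ici x ∪ Iic (-x) := by
    intro t ht
    have ht' : x ≤ |t| := ht
    rcases le_abs.mp ht' with h | h
    · exact Or.inl h
    · exact Or.inr (by show t ≤ -x; linarith)
  refine (measure_mono h0).trans ((measure_union_le _ _).trans ?_)
  have h1 := PerW.gauss_tail_pos hx
  have h2 : gaussianReal 0 1 (Iic (-x)) ≤ H493.ee x := by
    rw [← PerW.ee_neg]
    exact PerW.gauss_tail_neg (by linarith)
  refine (add_le_add h1 h2).trans (le_of_eq ?_)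
  unfold H493.ee
  rw [← ENNReal.ofReal_add (Real.exp_pos _).le (Real.exp_pos _).le]
  congr 1
  ring_nf

lemma pp_le (a : ℕ) : pp a ≤ ENNReal.ofReal (2 * Real.exp (-(((2 : ℝ) ^ a - 1) ^ 2 / 2))) := by
  have h2a : (1 : ℝ) ≤ 2 ^ a := one_le_pow₀ (by norm_num)
  refine le_trans (measure_mono ?_) (tail_abs (x := 2 ^ a - 1) (by linarith))
  intro t ht
  have ht' : (2 : ℝ) ^ a ≤ 1 + |t| := ht
  show (2 : ℝ) ^ a - 1 ≤ |t|
  linarith

/-- **the form of the assembly**: `Sum_a 2^a min (Y^(2 be)) (Y^be p_a^be) ≤ C 2^c Y^(2 be)` -/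
theorem layer_sum_prod {be : ℝ} (hbe : 0 < be) (hbe1 : be ≤ 1) {c : ℕ} {Y : ℝ≥0∞}
    (hY : ENNReal.ofReal (thr c) ≤ Y) (hYt : Y ≠ ⊤) {p : ℕ → ℝ≥0∞}
    (hp : ∀ a, p a ≤ ENNReal.ofReal (2 * Real.exp (-(((2 : ℝ) ^ a - 1) ^ 2 / 2)))) :
    ∑' a : ℕ, (2 : ℝ≥0∞) ^ a * min (Y ^ (2 * be)) (Y ^ be * p a ^ be)
      ≤ ENNReal.ofReal (2 * cLay be * 2 ^ c) * Y ^ (2 * be) := by
  have e : Y ^ (2 * be) = Y ^ be * Y ^ be := by
    rw [two_mul, ENNReal.rpow_add_of_nonneg _ _ hbe.le hbe.le]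
  have h1 : ∀ a, (2 : ℝ≥0∞) ^ a * min (Y ^ (2 * be)) (Y ^ be * p a ^ be)
      ≤ Y ^ be * ((2 : ℝ≥0∞) ^ a * (min Y (p a)) ^ be) := by
    intro a
    have h2 : min (Y ^ (2 * be)) (Y ^ be * p a ^ be) ≤ Y ^ be * (min Y (p a)) ^ be := by
      rcases le_total Y (p a) with h | h
      · rw [min_eq_left h, e]
        exact min_le_left _ _
      · rw [min_eq_right h]
        exact min_le_right _ _
    calc (2 : ℝ≥0∞) ^ a * min (Y ^ (2 * be)) (Y ^ be * p a ^ be)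
        ≤ 2 ^ a * (Y ^ be * (min Y (p a)) ^ be) := mul_le_mul_right h2 _
      _ = _ := by ring
  refine (ENNReal.tsum_le_tsum h1).trans ?_
  rw [ENNReal.tsum_mul_left]
  refine (mul_le_mul_right (layer_sum_min hbe hbe1 hY hYt hp) _).trans (le_of_eq ?_)
  rw [e]
  ring

/-- **literal form**: `al = be = 1/4` -/
theorem layer_sum_quarter {c : ℕ} {Y : ℝ≥0∞} (hY : ENNReal.ofReal (thr c) ≤ Y) (hYt : Y ≠ ⊤) :
    ∑' a : ℕ, (2 : ℝ≥0∞) ^ a * min (Y ^ (1 / 2 : ℝ)) (Y ^ (1 / 4 : ℝ) * pp a ^ (1 / 4 : ℝ))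
      ≤ ENNReal.ofReal (140 * 2 ^ c) * Y ^ (1 / 2 : ℝ) := by
  have h := layer_sum_prod (be := 1 / 4) (by norm_num) (by norm_num) hY hYt (p := pp) pp_le
  have e1 : (2 : ℝ) * (1 / 4) = 1 / 2 := by norm_num
  have e2 : 2 * cLay (1 / 4) = 140 := by unfold cLay; norm_num
  rw [e1, e2] at h
  exact h

end Vale.Agent.P262.H998
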