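import Vale.Agent.P262.H998.PsiC

/-!
# P262: the dyadic layer sum `Sum_a 2^a min(1, p_a / T)^beta ≤ C sqrt(1 - log T)`
-/

set_option linter.all false

open MeasureTheory ProbabilityTheory Set
open scoped ENNReal

namespace Vale.Agent.P262.H998

open Vale.Agent.P262.H941

lemma sum_two_pow_filter (Y : ℝ) (hY : 0 ≤ Y) (n : ℕ) :
    (∑ a ∈ Finset.range n, if (2 : ℝ) ^ a ≤ Y then (2 : ℝ) ^ a else 0) ≤ min (2 * Y) (2 ^ n) := by
  induction n with
  | zero =>
    rw [Finset.sum_range_zero]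
    exact le_min (by linarith) (by norm_num)
  | succ n ih =>
    rw [Finset.sum_range_succ]
    have h1 := ih.trans (min_le_left _ _)
    have h2 := ih.trans (min_le_right _ _)
    by_cases h : (2 : ℝ) ^ n ≤ Y
    · rw [if_pos h, pow_succ]
      apply le_min <;> linarith
    · rw [if_neg h, add_zero, pow_succ]
      have h3 : (0 : ℝ) < 2 ^ n := by positivity
      apply le_min <;> linarith

/-- one layer -/
lemma layer_term {be T : ℝ} (hbe : 0 < be) (hbe1 : be ≤ 1) (hT : 0 < T) (hT1 : T ≤ 1) (a : ℕ) :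
    (2 : ℝ) ^ a * (min 1 (2 * Real.exp (-(((2 : ℝ) ^ a - 1) ^ 2 / 2)) / T)) ^ be
      ≤ (if (2 : ℝ) ^ a ≤ 2 * Real.sqrt (1 - Real.log T) + 1 then (2 : ℝ) ^ a else 0)
        + 8 / be * (1 / 2) ^ a := by
  set y : ℝ := 1 - Real.log T with hy
  have hlT : Real.log T ≤ 0 := Real.log_nonpos hT.le hT1
  have hy1 : 1 ≤ y := by linarith
  set X : ℝ := (2 : ℝ) ^ a - 1 with hX
  have h2a : (1 : ℝ) ≤ 2 ^ a := one_le_pow₀ (by norm_num)
  have hX0 : 0 ≤ X := by linarith
  set m : ℝ := min 1 (2 * Real.exp (-(X ^ 2 / 2)) / T) with hm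
  have hm0 : 0 ≤ m := le_min zero_le_one (by positivity)
  have hm1 : m ≤ 1 := min_le_left _ _
  by_cases h : (2 : ℝ) ^ a ≤ 2 * Real.sqrt y + 1
  · rw [if_pos h]
    have h1 : m ^ be ≤ 1 := Real.rpow_le_one hm0 hm1 hbe.le
    have h2 : 0 ≤ 8 / be * (1 / 2 : ℝ) ^ a := by positivity
    nlinarith
  · rw [if_neg h, zero_add]
    have hX2 : 2 * Real.sqrt y < X := by
      have := not_le.mp h
      linarith
    have hsq : 4 * y < X ^ 2 := by
      have h3 := Real.sq_sqrt (show 0 ≤ y by linarith)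
      have h4 := Real.sqrt_nonneg y
      nlinarith
    have h3 : m ≤ Real.exp (-(X ^ 2 / 4)) := by
      refine (min_le_right _ _).trans ?_
      rw [div_le_iff₀ hT]
      have h4 : T = Real.exp (1 - y) := by
        rw [hy, show (1 : ℝ) - (1 - Real.log T) = Real.log T by ring, Real.exp_log hT]
      rw [h4, ← Real.exp_add]
      have h5 : (2 : ℝ) ≤ Real.exp 1 := by
        have := Real.add_one_le_exp (1 : ℝ)
        linarith
      calc 2 * Real.exp (-(X ^ 2 / 2)) ≤ Real.exp 1 * Real.exp (-(X ^ 2 / 2)) := by gcongr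
        _ = Real.exp (1 + -(X ^ 2 / 2)) := (Real.exp_add _ _).symm
        _ ≤ _ := by
          apply Real.exp_le_exp.mpr
          linarith
    have h4 : m ^ be ≤ Real.exp (-(be * (X ^ 2 / 4))) := by
      calc m ^ be ≤ Real.exp (-(X ^ 2 / 4)) ^ be := Real.rpow_le_rpow hm0 h3 hbe.le
        _ = _ := by
          rw [← Real.exp_mul]
          congr 1
          ring
    have h5 : Real.exp (-(be * (X ^ 2 / 4))) ≤ (1 + be * (X ^ 2 / 4))⁻¹ := by
      rw [Real.exp_neg]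
      apply inv_anti₀ (by positivity)
      have := Real.add_one_le_exp (be * (X ^ 2 / 4))
      linarith
    -- `1 + be X^2/4 ≥ be/8 * 4^a`
    have h6 : be / 8 * (2 ^ a * 2 ^ a) ≤ 1 + be * (X ^ 2 / 4) := by
      have e : (2 : ℝ) ^ a = X + 1 := by rw [hX]; ring
      rw [e]
      nlinarith [sq_nonneg (X - 1)]
    have h7 : (1 + be * (X ^ 2 / 4))⁻¹ ≤ (be / 8 * (2 ^ a * 2 ^ a))⁻¹ :=
      inv_anti₀ (by positivity) h6
    calc (2 : ℝ) ^ a * m ^ be ≤ 2 ^ a * (be / 8 * (2 ^ a * 2 ^ a))⁻¹ := by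
          apply mul_le_mul_of_nonneg_left _ (by positivity)
          exact h4.trans (h5.trans h7)
      _ = 8 / be * (1 / 2) ^ a := by
          have h8 : (2 : ℝ) ^ a ≠ 0 := by positivity
          rw [one_div, inv_pow]
          field_simp

/-- the constant -/
noncomputable def cLay (be : ℝ) : ℝ := 6 + 16 / be

lemma cLay_pos {be : ℝ} (h : 0 < be) : 0 < cLay be := by unfold cLay; positivity

/-- **dyadic layer sum** -/
theorem layer_sum {be T : ℝ} (hbe : 0 < be) (hbe1 : be ≤ 1) (hT : 0 < T) (hT1 : T ≤ 1)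
    {p : ℕ → ℝ≥0∞} (hp : ∀ a, p a ≤ ENNReal.ofReal (2 * Real.exp (-(((2 : ℝ) ^ a - 1) ^ 2 / 2)))) :
    ∑' a : ℕ, (2 : ℝ≥0∞) ^ a * (min 1 (p a / ENNReal.ofReal T)) ^ be
      ≤ ENNReal.ofReal (cLay be * Real.sqrt (1 - Real.log T)) := by
  have hlT : Real.log T ≤ 0 := Real.log_nonpos hT.le hT1
  set Y : ℝ := 2 * Real.sqrt (1 - Real.log T) + 1 with hY
  have hY0 : 0 ≤ Y := by positivity
  have h1 : ∀ a, (2 : ℝ≥0∞) ^ a * (min 1 (p a / ENNReal.ofReal T)) ^ be
      ≤ ENNReal.ofReal ((if (2 : ℝ) ^ a ≤ Y then (2 : ℝ) ^ a else 0) + 8 / be * (1 / 2) ^ a) := by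
    intro a
    refine le_trans ?_ (ENNReal.ofReal_le_ofReal (layer_term hbe hbe1 hT hT1 a))
    rw [ENNReal.ofReal_mul (by positivity), ENNReal.ofReal_pow (by norm_num)]
    have e2 : ENNReal.ofReal 2 = 2 := by simp
    rw [e2]
    apply mul_le_mul_right
    rw [← ENNReal.ofReal_rpow_of_nonneg (le_min zero_le_one (by positivity)) hbe.le]
    apply ENNReal.rpow_le_rpow _ hbe.le
    rw [ENNReal.ofReal_min, ENNReal.ofReal_one, ENNReal.ofReal_div_of_pos hT]
    exact min_le_min_left _ (ENNReal.div_le_div_right (hp a) _)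
  refine ENNReal.tsum_le_of_sum_range_le fun n => ?_
  calc ∑ a ∈ Finset.range n, (2 : ℝ≥0∞) ^ a * (min 1 (p a / ENNReal.ofReal T)) ^ be
      ≤ ∑ a ∈ Finset.range n, ENNReal.ofReal ((if (2 : ℝ) ^ a ≤ Y then (2 : ℝ) ^ a else 0)
          + 8 / be * (1 / 2) ^ a) := Finset.sum_le_sum fun a _ => h1 a
    _ = ENNReal.ofReal (∑ a ∈ Finset.range n, ((if (2 : ℝ) ^ a ≤ Y then (2 : ℝ) ^ a else 0)
          + 8 / be * (1 / 2) ^ a)) := by
        rw [ENNReal.ofReal_sum_of_nonneg]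
        intro a _
        have : (0 : ℝ) ≤ if (2 : ℝ) ^ a ≤ Y then (2 : ℝ) ^ a else 0 := by
          split_ifs <;> positivity
        positivity
    _ ≤ _ := by
        apply ENNReal.ofReal_le_ofReal
        rw [Finset.sum_add_distrib, ← Finset.mul_sum]
        have h2 := (sum_two_pow_filter Y hY0 n).trans (min_le_left _ _)
        have h3 : ∑ a ∈ Finset.range n, (1 / 2 : ℝ) ^ a ≤ 2 := by
          have := (summable_geometric_of_lt_one (r := (1 / 2 : ℝ)) (by norm_num)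
            (by norm_num)).sum_le_tsum (Finset.range n) (fun i _ => by positivity)
          rw [tsum_geometric_of_lt_one (by norm_num) (by norm_num)] at this
          norm_num at this ⊢
          exact this
        have h4 : 1 ≤ Real.sqrt (1 - Real.log T) := by
          rw [show (1 : ℝ) = Real.sqrt 1 by simp]
          exact Real.sqrt_le_sqrt (by simp; linarith)
        have h5 : 8 / be * ∑ a ∈ Finset.range n, (1 / 2 : ℝ) ^ a ≤ 8 / be * 2 :=
          mul_le_mul_of_nonneg_left h3 (by positivity)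
        have h6 : 0 < 16 / be := by positivity
        have h7 : 8 / be * 2 = 16 / be := by ring
        unfold cLay
        nlinarith

lemma sqrt_thr_le (c : ℕ) : Real.sqrt (1 - Real.log (thr c)) ≤ 2 * 2 ^ c := by
  apply Real.sqrt_le_iff.mpr
  refine ⟨by positivity, ?_⟩
  have h3 : Real.log (thr c) = 1 - 4 ^ c - Real.log 10 := by
    unfold thr
    rw [Real.log_div (Real.exp_pos _).ne' (by norm_num), Real.log_exp]
  have h4 : Real.log 10 ≤ 3 := by
    rw [Real.log_le_iff_le_exp (by norm_num)]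
    have h5 : (2.7182818283 : ℝ) ≤ Real.exp 1 := Real.exp_one_gt_d9.le
    have h6 : Real.exp 3 = Real.exp 1 ^ 3 := by rw [← Real.exp_nat_mul]; norm_num
    rw [h6]
    calc (10:ℝ) ≤ 2.7182818283 ^ 3 := by norm_num
      _ ≤ _ := pow_le_pow_left₀ (by norm_num) h5 3
  have h7 : (2 * (2 : ℝ) ^ c) ^ 2 = 4 * 4 ^ c := by
    rw [mul_pow, ← pow_mul, mul_comm c 2, pow_mul]; norm_num
  have h8 : (1 : ℝ) ≤ 4 ^ c := one_le_pow₀ (by norm_num)
  rw [h7, h3]
  linarith

/-- **dyadic layer sum** at the threshold of a class -/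
theorem layer_sum_thr {be : ℝ} (hbe : 0 < be) (hbe1 : be ≤ 1) (c : ℕ) {p : ℕ → ℝ≥0∞}
    (hp : ∀ a, p a ≤ ENNReal.ofReal (2 * Real.exp (-(((2 : ℝ) ^ a - 1) ^ 2 / 2)))) :
    ∑' a : ℕ, (2 : ℝ≥0∞) ^ a * (min 1 (p a / ENNReal.ofReal (thr c))) ^ be
      ≤ ENNReal.ofReal (2 * cLay be * 2 ^ c) := by
  have ht := thr_pos c
  have ht1 : thr c ≤ 1 := (thr_le c).trans (by norm_num)
  refine (layer_sum hbe hbe1 ht ht1 hp).trans (ENNReal.ofReal_le_ofReal ?_)
  have h1 := sqrt_thr_le c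
  have h2 := cLay_pos hbe
  calc cLay be * Real.sqrt (1 - Real.log (thr c)) ≤ cLay be * (2 * 2 ^ c) :=
        mul_le_mul_of_nonneg_left h1 h2.le
    _ = _ := by ring

/-- the form used for a unit `D^be` with `D ≥ thr c`: `Sum_a 2^a min(D, p_a)^be ≤ C 2^c D^be` -/
theorem layer_sum_min {be : ℝ} (hbe : 0 < be) (hbe1 : be ≤ 1) {c : ℕ} {D : ℝ≥0∞}
    (hD : ENNReal.ofReal (thr c) ≤ D) (hDt : D ≠ ⊤) {p : ℕ → ℝ≥0∞}
    (hp : ∀ a, p a ≤ ENNReal.ofReal (2 * Real.exp (-(((2 : ℝ) ^ a - 1) ^ 2 / 2)))) :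
    ∑' a : ℕ, (2 : ℝ≥0∞) ^ a * (min D (p a)) ^ be
      ≤ ENNReal.ofReal (2 * cLay be * 2 ^ c) * D ^ be := by
  have ht := thr_pos c
  have hD0 : D ≠ 0 := by
    intro h
    rw [h, nonpos_iff_eq_zero, ENNReal.ofReal_eq_zero] at hD
    linarith
  have h1 : ∀ a, (2 : ℝ≥0∞) ^ a * (min D (p a)) ^ be
      ≤ ((2 : ℝ≥0∞) ^ a * (min 1 (p a / ENNReal.ofReal (thr c))) ^ be) * D ^ be := by
    intro a
    rw [mul_assoc, ← ENNReal.mul_rpow_of_nonneg _ _ hbe.le]
    apply mul_le_mul_right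
    apply ENNReal.rpow_le_rpow _ hbe.le
    rw [min_mul, one_mul]
    apply min_le_min_left
    calc p a = p a / D * D := (ENNReal.div_mul_cancel hD0 hDt).symm
      _ ≤ p a / ENNReal.ofReal (thr c) * D :=
        mul_le_mul_left (ENNReal.div_le_div_left hD _) _
  refine (ENNReal.tsum_le_tsum h1).trans ?_
  rw [ENNReal.tsum_mul_right]
  exact mul_le_mul_left (layer_sum_thr hbe hbe1 c hp) _

end Vale.Agent.P262.H998
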