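import Vale.Agent.P262.H998.GCHb2

/-!
# P262, milestone 2: the labelwise block lemma (core)

`K t` is the (cut off) body seen by one label at the real time `t` of a block `[a, b]`, `e s` are the
visible fields after every elementary move, `D t = γ((K t)ᶜ)`.  `Γ` is the total of the fluxes and
of all soft changes over the block.

* `own_complete`: the unit `Cost * D*` of a complete block of a label which is never sick;
* `sick_complete`: the unit `Cost` of a complete block of a label of class zero;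
* `own_incomplete`, `sick_incomplete`: the incomplete blocks.
-/

set_option linter.unusedSectionVars false

namespace Vale.Agent.P262.H998

open MeasureTheory ProbabilityTheory Set Filter Topology Module
open scoped RealInnerProductSpace
open Vale.Agent.P262.H847 Vale.Agent.P262.H912 Vale.Agent.P262.H941
open Vale.Agent.P262.H274 (Slow SlowEx PivotAt Cost Gam)
open Vale.Agent.P262.H174 (Soft)

variable {E : Type*} [NormedAddCommGroup E] [InnerProductSpace ℝ E] [FiniteDimensional ℝ E]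
  [MeasurableSpace E] [BorelSpace E]

noncomputable section

/-- **The data of one label over one block** `[a, b]` (real times).  `e s` are the visible fields
after the elementary moves, `τ t` the index of the real time `t`, `σ t` the index of the field at
which the flux is taken, `K t` the convex body, `h` a bound of the hidden mass. -/
structure Blk (e : ℕ → E → ℝ) (K : ℕ → Set E) (v : ℕ → E) (F α β : ℕ → ℝ) (τ σ : ℕ → ℕ)
    (h : ℝ) (a b : ℕ) : Prop where
  ui : ∀ s, UI (e s)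
  mono : Monotone τ
  lt : a < b
  sig : ∀ t, a ≤ t → t < b → τ t ≤ σ t ∧ σ t < τ (t + 1)
  flux : ∀ t, a ≤ t → t < b → FluxLe (e (σ t)) (v t) (F t)
  soft : ∀ s, τ a ≤ s → s < τ b → Soft (e s) (e (s + 1)) (α s) (β s)
  beta : ∀ s, τ a ≤ s → s < τ b → 0 ≤ β s
  conv : ∀ t, a ≤ t → t ≤ b → Convex ℝ (K t)
  meas : ∀ t, a ≤ t → t ≤ b → MeasurableSet (K t)
  hid : ∀ t, a ≤ t → t ≤ b →
    ∫ x, |e (τ t) x - (K t)ᶜ.indicator (fun _ => (1:ℝ)) x| ∂(stdGaussian E) ≤ h

/-- dead mass -/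
def Dd (K : ℕ → Set E) (t : ℕ) : ℝ := (stdGaussian E).real (K t)ᶜ

/-- total flux and change over the block -/
def Gtot (F α β : ℕ → ℝ) (τ : ℕ → ℕ) (a b : ℕ) : ℝ :=
  Gam F a b + Gam (fun s => α s + β s) (τ a) (τ b)

lemma Dd_nonneg (K : ℕ → Set E) (t : ℕ) : 0 ≤ Dd K t := measureReal_nonneg

lemma Dd_le_one (K : ℕ → Set E) (t : ℕ) : Dd K t ≤ 1 := measureReal_le_one

namespace Blk

variable {e : ℕ → E → ℝ} {K : ℕ → Set E} {v : ℕ → E} {F α β : ℕ → ℝ} {τ σ : ℕ → ℕ}
  {h : ℝ} {a b : ℕ}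

/-- the mean of the field varies by at most the total, at all elementary states -/
lemma var_field (H : Blk e K v F α β τ σ h a b) {s u : ℕ} (h1 : τ a ≤ s) (h2 : s ≤ τ b)
    (h3 : τ a ≤ u) (h4 : u ≤ τ b) :
    |∫ x, e s x ∂(stdGaussian E) - ∫ x, e u x ∂(stdGaussian E)| ≤ Gtot F α β τ a b := by
  have hα : ∀ s, τ a ≤ s → s < τ b →
      |∫ x, e (s + 1) x ∂(stdGaussian E) - ∫ x, e s x ∂(stdGaussian E)| ≤ α s + β s :=
    fun s h1 h2 => ((H.soft s h1 h2).mass (H.ui s) (H.ui (s + 1))).trans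
      (by linarith [H.beta s h1 h2])
  have h0 : ∀ s, τ a ≤ s → s < τ b → 0 ≤ α s + β s := fun s h1 h2 => (abs_nonneg _).trans (hα s h1 h2)
  have hF : 0 ≤ Gam F a b := Finset.sum_nonneg fun t ht => by
    rw [Finset.mem_Ico] at ht; exact (H.flux t ht.1 ht.2).nonneg
  have key : ∀ s u, τ a ≤ s → s ≤ u → u ≤ τ b →
      |∫ x, e u x ∂(stdGaussian E) - ∫ x, e s x ∂(stdGaussian E)|
        ≤ Gam (fun s => α s + β s) s u := by
    intro s u h1 h2
    induction u, h2 using Nat.le_induction with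
    | base => intro _; simp [Gam]
    | succ u h2 ih =>
      intro h3
      have e1 := ih (by omega)
      have e2 := hα u (by omega) (by omega)
      have e3 : Gam (fun s => α s + β s) s (u + 1) = Gam (fun s => α s + β s) s u + (α u + β u) := by
        unfold Gam; rw [Finset.sum_Ico_succ_top h2]
      rw [e3]
      calc |∫ x, e (u + 1) x ∂(stdGaussian E) - ∫ x, e s x ∂(stdGaussian E)|
          ≤ |∫ x, e (u + 1) x ∂(stdGaussian E) - ∫ x, e u x ∂(stdGaussian E)|
            + |∫ x, e u x ∂(stdGaussian E) - ∫ x, e s x ∂(stdGaussian E)| := abs_sub_le _ _ _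
        _ ≤ _ := by linarith
  have key2 : ∀ s u, τ a ≤ s → s ≤ u → u ≤ τ b →
      |∫ x, e u x ∂(stdGaussian E) - ∫ x, e s x ∂(stdGaussian E)| ≤ Gtot F α β τ a b := by
    intro s u h1 h2 h3
    refine (key s u h1 h2 h3).trans ?_
    have e4 := gam_mono (g := fun s => α s + β s) h0 h1 h3
    have e5 : Gam (fun s => α s + β s) s u ≤ Gam (fun s => α s + β s) (τ a) (τ b) := e4
    unfold Gtot
    linarith
  rcases le_total s u with h | h
  · rw [abs_sub_comm]; exact key2 s u h1 h h4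
  · exact key2 u s h3 h h2

lemma tot_nonneg (H : Blk e K v F α β τ σ h a b) : 0 ≤ Gtot F α β τ a b :=
  (abs_nonneg _).trans (H.var_field le_rfl (H.mono H.lt.le) le_rfl (H.mono H.lt.le))

/-- the mean of the field is the dead mass up to the hidden mass -/
lemma close (H : Blk e K v F α β τ σ h a b) {t : ℕ} (h1 : a ≤ t) (h2 : t ≤ b) :
    |∫ x, e (τ t) x ∂(stdGaussian E) - Dd K t| ≤ h := by
  have h5 : Dd K t = ∫ x, (K t)ᶜ.indicator (fun _ => (1:ℝ)) x ∂(stdGaussian E) := by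
    rw [integral_indicator_const _ (H.meas t h1 h2).compl]; simp [Dd]
  have h6 : Integrable ((K t)ᶜ.indicator (fun _ => (1:ℝ))) (stdGaussian E) :=
    (UI.indicator (H.meas t h1 h2).compl).integrable _
  rw [h5, ← integral_sub ((H.ui _).integrable _) h6]
  exact abs_integral_le_integral_abs.trans (H.hid t h1 h2)

/-- the mean of any elementary field against the dead mass at any real time -/
lemma var (H : Blk e K v F α β τ σ h a b) {t s : ℕ} (h1 : a ≤ t) (h2 : t ≤ b) (h3 : τ a ≤ s)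
    (h4 : s ≤ τ b) : |∫ x, e s x ∂(stdGaussian E) - Dd K t| ≤ Gtot F α β τ a b + h := by
  have e1 := abs_le.mp (H.var_field h3 h4 (H.mono h1) (H.mono h2))
  have e2 := abs_le.mp (H.close h1 h2)
  rw [abs_le]
  constructor <;> linarith [e1.1, e1.2, e2.1, e2.2]

lemma cost_le_one (H : Blk e K v F α β τ σ h a b) {N ρ : ℝ} (hN : 0 ≤ N) (hρ : 0 ≤ ρ) :
    Cost (Slow v N) ρ a b ≤ 1 := by
  have := Vale.Agent.P262.H274.cost_le_pow (S := Slow v N) hρ H.lt (slow_zero v hN a b)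
  simpa using this

/-- **complete block, label never sick**: the unit `Cost * D*` is paid.  `Dst` bounds the dead mass
at the real times of the block and is reached, up to a factor `3/4`, by the mean of the field at
some elementary state. -/
theorem own_complete (H : Blk e K v F α β τ σ h a b) {N ρ : ℝ} (hN0 : 0 < N) (hN1 : N ≤ 1)
    (hρ0 : 0 < ρ) (hρ1 : ρ ≤ 1 / 324) {b₁ c : ℝ} {J : ℕ} (hb₁ : 0 < b₁) (hc0 : 0 < c)
    (hc1 : c ≤ 1 / 8) (hJ : 1500 * c * (J + 1) + 32 * (1 / 2) ^ J ≤ b₁ / 300)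
    {Dst : ℝ} (hD0 : 0 < Dst) (hD1 : Dst ≤ 1 - b₁) (hmax : ∀ t, a ≤ t → t ≤ b → Dd K t ≤ Dst)
    {s0 : ℕ} (hs0a : τ a ≤ s0) (hs0b : s0 ≤ τ b)
    (hpeak : 3 / 4 * Dst ≤ ∫ x, e s0 x ∂(stdGaussian E))
    (hNc : N * Real.sqrt (1 - Real.log (Dst / 4)) ≤ c) {c₁ : ℝ}
    (hc₁ : c₁ ≤ N * Real.sqrt (1 - Real.log Dst))
    (hh : h ≤ (b₁ / 2000) ^ 2 * (Dst / 4)) (hS : ¬ Slow v N 1 a b) :
    min (c / (32 * 2 ^ J) * c₁) (1 / 4) * (Dst * Cost (Slow v N) ρ a b)
      ≤ Gtot F α β τ a b := by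
  have hΓ := H.tot_nonneg
  have hC1 := H.cost_le_one hN0.le hρ0.le
  have hC0 : 0 ≤ Cost (Slow v N) ρ a b := Vale.Agent.P262.H274.cost_nonneg hρ0.le a b
  have hb₁1 : b₁ ≤ 1 := by linarith
  by_cases hlow : ∀ t, a ≤ t → t ≤ b → Dst / 4 ≤ Dd K t
  · have h1 := gain_cost_b_ref H.ui hN0 hN1 hρ0 hρ1 hb₁ hc0 hc1 hJ H.mono H.lt H.sig H.flux
      H.soft H.beta H.conv H.meas (fun t h1 h2 => by
        have := hlow t h1 h2
        show 0 < Dd K t
        linarith) (fun t h1 h2 => (hmax t h1 h2).trans hD1) (fun t h1 h2 => by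
        refine le_trans ?_ hNc
        apply mul_le_mul_of_nonneg_left _ hN0.le
        apply Real.sqrt_le_sqrt
        have := Real.log_le_log (by linarith : 0 < Dst / 4) (hlow t h1 h2)
        show 1 - Real.log (Dd K t) ≤ _
        linarith) (fun t h1 h2 => by
        refine (H.hid t h1 h2).trans (hh.trans ?_)
        exact mul_le_mul_of_nonneg_left (hlow t h1 h2) (by positivity)) hS le_rfl H.lt.le
    change c / (8 * 2 ^ J) * (N * LL (Dd K a)) * Cost (Slow v N) ρ a b ≤ Gtot F α β τ a b at h1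
    have h2 : 1 / 4 * LL Dst ≤ LL (Dd K a) :=
      (mul_LL_le (by norm_num) (by norm_num) hD0 (by linarith)).trans
        (LL_mono (by positivity) (by linarith [hlow a le_rfl H.lt.le]) (Dd_le_one K a))
    have h3 : c₁ * Dst ≤ N * LL Dst := by
      have : N * LL Dst = N * Real.sqrt (1 - Real.log Dst) * Dst := by unfold LL; ring
      rw [this]
      exact mul_le_mul_of_nonneg_right hc₁ hD0.le
    refine le_trans ?_ h1
    calc min (c / (32 * 2 ^ J) * c₁) (1 / 4) * (Dst * Cost (Slow v N) ρ a b)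
        ≤ c / (32 * 2 ^ J) * c₁ * (Dst * Cost (Slow v N) ρ a b) :=
          mul_le_mul_of_nonneg_right (min_le_left _ _) (by positivity)
      _ = c / (8 * 2 ^ J) * (1 / 4) * (c₁ * Dst) * Cost (Slow v N) ρ a b := by ring
      _ ≤ c / (8 * 2 ^ J) * (1 / 4) * (N * LL Dst) * Cost (Slow v N) ρ a b := by gcongr
      _ = c / (8 * 2 ^ J) * (N * (1 / 4 * LL Dst)) * Cost (Slow v N) ρ a b := by ring
      _ ≤ _ := by gcongr
  · push Not at hlow
    obtain ⟨t, h1, h2, h3⟩ := hlow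
    have h4 := (abs_le.mp (H.var h1 h2 hs0a hs0b)).2
    have h5 : (b₁ / 2000) ^ 2 ≤ 1 / 8 := by nlinarith
    have h6 : h ≤ 1 / 8 * (Dst / 4) :=
      hh.trans (mul_le_mul_of_nonneg_right h5 (by linarith))
    calc min (c / (32 * 2 ^ J) * c₁) (1 / 4) * (Dst * Cost (Slow v N) ρ a b)
        ≤ 1 / 4 * (Dst * Cost (Slow v N) ρ a b) :=
          mul_le_mul_of_nonneg_right (min_le_right _ _) (by positivity)
      _ ≤ 1 / 4 * (Dst * 1) := by gcongr
      _ ≤ Gtot F α β τ a b := by linarith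

/-- **complete block, label of class zero**: the unit `Cost` is paid, unless the alive mass is small
during the whole block.  `s0`, `s1` are elementary states: at `s0` the label is at least `1/16` dead,
at `s1` it is at least `3 q₀ / 2` alive. -/
theorem sick_complete (H : Blk e K v F α β τ σ h a b) {N ρ : ℝ} (hN0 : 0 < N) (hN1 : N ≤ 1)
    (hρ0 : 0 < ρ) (hρ1 : ρ ≤ 1 / 324) {q₀ c : ℝ} {J : ℕ} (hq₀ : 0 < q₀) (hq₀' : q₀ ≤ 1 / 40)
    (hc0 : 0 < c) (hc1 : c ≤ 1 / 8) (hJ : 1500 * c * (J + 1) + 32 * (1 / 2) ^ J ≤ q₀ / 300)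
    {s0 : ℕ} (hs0a : τ a ≤ s0) (hs0b : s0 ≤ τ b)
    (hpeak : 1 / 16 ≤ ∫ x, e s0 x ∂(stdGaussian E))
    {s1 : ℕ} (hs1a : τ a ≤ s1) (hs1b : s1 ≤ τ b)
    (halive : ∫ x, e s1 x ∂(stdGaussian E) ≤ 1 - 3 / 2 * q₀)
    (hNc : N * Real.sqrt (1 - Real.log (1 / 40)) ≤ c)
    (hh : h ≤ (q₀ / 2000) ^ 2 * (1 / 40)) (hS : ¬ Slow v N 1 a b) :
    min (c / (8 * 2 ^ J) * (N / 40)) (q₀ / 4) * Cost (Slow v N) ρ a b ≤ Gtot F α β τ a b := by
  have hΓ := H.tot_nonneg
  have hC1 := H.cost_le_one hN0.le hρ0.le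
  have hC0 : 0 ≤ Cost (Slow v N) ρ a b := Vale.Agent.P262.H274.cost_nonneg hρ0.le a b
  have h5 : (q₀ / 2000) ^ 2 ≤ 1 / 8 * q₀ := by nlinarith
  have h6 : h ≤ 1 / 320 * q₀ := by
    refine hh.trans ?_
    linarith
  by_cases hlow : ∀ t, a ≤ t → t ≤ b → 1 / 40 ≤ Dd K t
  · by_cases hup : ∀ t, a ≤ t → t ≤ b → Dd K t ≤ 1 - q₀
    · have h1 := gain_cost_b_ref H.ui hN0 hN1 hρ0 hρ1 hq₀ hc0 hc1 hJ H.mono H.lt H.sig H.flux
        H.soft H.beta H.conv H.meas (fun t h1 h2 => by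
          have := hlow t h1 h2
          show 0 < Dd K t
          linarith) hup (fun t h1 h2 => by
          refine le_trans ?_ hNc
          apply mul_le_mul_of_nonneg_left _ hN0.le
          apply Real.sqrt_le_sqrt
          have := Real.log_le_log (by norm_num : (0:ℝ) < 1 / 40) (hlow t h1 h2)
          show 1 - Real.log (Dd K t) ≤ _
          linarith) (fun t h1 h2 => by
          refine (H.hid t h1 h2).trans (hh.trans ?_)
          exact mul_le_mul_of_nonneg_left (hlow t h1 h2) (by positivity)) hS le_rfl H.lt.le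
      change c / (8 * 2 ^ J) * (N * LL (Dd K a)) * Cost (Slow v N) ρ a b
        ≤ Gtot F α β τ a b at h1
      refine le_trans ?_ h1
      have h7 : 1 / 40 ≤ LL (Dd K a) := (hlow a le_rfl H.lt.le).trans
        (le_LL (Dd_nonneg K a) (Dd_le_one K a))
      calc min (c / (8 * 2 ^ J) * (N / 40)) (q₀ / 4) * Cost (Slow v N) ρ a b
          ≤ c / (8 * 2 ^ J) * (N / 40) * Cost (Slow v N) ρ a b :=
            mul_le_mul_of_nonneg_right (min_le_left _ _) hC0
        _ = c / (8 * 2 ^ J) * (N * (1 / 40)) * Cost (Slow v N) ρ a b := by ring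
        _ ≤ _ := by gcongr
    · push Not at hup
      obtain ⟨t, h1, h2, h3⟩ := hup
      have h4 := (abs_le.mp (H.var h1 h2 hs1a hs1b)).1
      calc min (c / (8 * 2 ^ J) * (N / 40)) (q₀ / 4) * Cost (Slow v N) ρ a b
          ≤ q₀ / 4 * Cost (Slow v N) ρ a b :=
            mul_le_mul_of_nonneg_right (min_le_right _ _) hC0
        _ ≤ q₀ / 4 * 1 := mul_le_mul_of_nonneg_left hC1 (by positivity)
        _ ≤ Gtot F α β τ a b := by linarith
  · push Not at hlow
    obtain ⟨t, h1, h2, h3⟩ := hlow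
    have h4 := (abs_le.mp (H.var h1 h2 hs0a hs0b)).2
    calc min (c / (8 * 2 ^ J) * (N / 40)) (q₀ / 4) * Cost (Slow v N) ρ a b
        ≤ q₀ / 4 * Cost (Slow v N) ρ a b :=
          mul_le_mul_of_nonneg_right (min_le_right _ _) hC0
      _ ≤ q₀ / 4 * 1 := mul_le_mul_of_nonneg_left hC1 (by positivity)
      _ ≤ Gtot F α β τ a b := by linarith

/-- **any block, any label** (used for the incomplete ones): the peak of the mean of the field is at
most `4` times the mean at any other elementary state, or it is paid. -/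
theorem own_any (H : Blk e K v F α β τ σ h a b) {Dst : ℝ} {s0 : ℕ} (hs0a : τ a ≤ s0)
    (hs0b : s0 ≤ τ b) (hpeak : 3 / 4 * Dst ≤ ∫ x, e s0 x ∂(stdGaussian E)) {o : ℕ}
    (hoa : τ a ≤ o) (hob : o ≤ τ b) :
    Dst ≤ 4 * ∫ x, e o x ∂(stdGaussian E) ∨ Dst ≤ 2 * Gtot F α β τ a b := by
  by_cases h1 : Dst ≤ 4 * ∫ x, e o x ∂(stdGaussian E)
  · exact Or.inl h1
  · right
    push Not at h1
    have h2 := (abs_le.mp (H.var_field hs0a hs0b hoa hob)).2
    linarith

/-- **any block, label of class zero** (used for the incomplete ones). -/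
theorem sick_any (H : Blk e K v F α β τ σ h a b) {q₀ : ℝ} (hq₀' : q₀ ≤ 1 / 40)
    {s0 : ℕ} (hs0a : τ a ≤ s0) (hs0b : s0 ≤ τ b)
    (hpeak : 1 / 16 ≤ ∫ x, e s0 x ∂(stdGaussian E))
    {s1 : ℕ} (hs1a : τ a ≤ s1) (hs1b : s1 ≤ τ b)
    (halive : ∫ x, e s1 x ∂(stdGaussian E) ≤ 1 - 3 / 2 * q₀)
    {o o' : ℕ} (hoa : τ a ≤ o) (hob : o ≤ τ b) (hoa' : τ a ≤ o') (hob' : o' ≤ τ b) :
    q₀ ≤ min (∫ x, e o x ∂(stdGaussian E)) (1 - ∫ x, e o' x ∂(stdGaussian E))
      ∨ q₀ ≤ 2 * Gtot F α β τ a b := by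
  by_cases h1 : q₀ ≤ min (∫ x, e o x ∂(stdGaussian E)) (1 - ∫ x, e o' x ∂(stdGaussian E))
  · exact Or.inl h1
  · right
    rw [le_min_iff] at h1
    have h2 := (abs_le.mp (H.var_field hs0a hs0b hoa hob)).2
    have h3 := (abs_le.mp (H.var_field hoa' hob' hs1a hs1b)).2
    by_contra h4
    push Not at h4
    apply h1
    constructor <;> linarith

end Blk

end

end Vale.Agent.P262.H998
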