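import Vale.Agent.P262.H941.GainCost4

/-!
# The gain-cost lemma (soft, two-sided visible fields) for labels of health at least `b`

`gain_cost_b` is `gain_cost_two` with the hypothesis `D ≤ 7 / 8` replaced by `D ≤ 1 - b`, for any
`b > 0`; the constants depend on `b` only.
-/

set_option linter.unusedSectionVars false

namespace Vale.Agent.P262.H998

open MeasureTheory ProbabilityTheory Set Filter Topology Module
open scoped RealInnerProductSpace
open Vale.Agent.P262.H847 Vale.Agent.P262.H912 Vale.Agent.P262.H941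
open Vale.Agent.P262.H274 (Slow SlowEx PivotAt Cost Gam)

variable {E : Type*} [NormedAddCommGroup E] [InnerProductSpace ℝ E] [FiniteDimensional ℝ E]
  [MeasurableSpace E] [BorelSpace E]

noncomputable section

/-- **The data of all levels at one common time**, general number `J` of balanced scales. -/
theorem levels3 (J : ℕ) {f : ℕ → E → ℝ} (hf : ∀ t, UI (f t)) {D : ℕ → ℝ} {v : ℕ → E} {g : ℕ → ℝ} {N c ρ : ℝ} (hN0 : 0 < N) (hN1 : N ≤ 1) (hc0 : 0 < c)
    (hc1 : c ≤ 1 / 8) (hρ0 : 0 < ρ) (hρ1 : ρ ≤ 1 / 324) {a b : ℕ} (hab : a < b)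
    (hB : ScaleBds f v g N a b)
    (hD0 : ∀ t, a ≤ t → t ≤ b → 0 < D t) (hD1 : ∀ t, a ≤ t → t ≤ b → D t ≤ 1)
    (hNc : ∀ t, a ≤ t → t ≤ b → N * Real.sqrt (1 - Real.log (D t)) ≤ c)
    (hmass : ∀ t, a ≤ t → t ≤ b → |∫ x, f t x ∂(stdGaussian E) - D t| ≤ 1 / 8 * D t)
    (hS : ¬ Slow v N 1 a b) {t0 : ℕ} (ht0a : a ≤ t0) (ht0b : t0 ≤ b)
    (hlt : Gam g a b < c / (8 * 2 ^ J) * (N * LL (D t0)) * Cost (Slow v N) ρ a b) :
    ∃ t, a ≤ t ∧ t ≤ b ∧ ∀ k, 1 ≤ k → ∃ V : Submodule ℝ E, finrank ℝ V ≤ 2 * (k - 1) ∧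
      ∀ s, 0 < s → s ≤ 1 → 1 / s ≤ 2 ^ J * 2 ^ k →
        lev (fun p => ‖(ContinuousLinearMap.id ℝ E - V.starProjection) (mom (f t) s p)‖) s
          ≤ 3000 * c * (1 / 2) ^ k * LL (D t) := by
  have hc1' : c ≤ 1 := by linarith
  have hcost1 : Cost (Slow v N) ρ a b ≤ 1 := by
    have := Vale.Agent.P262.H274.cost_le_pow (S := Slow v N) hρ0.le hab (slow_zero v hN0.le a b)
    simpa using this
  have hg0 := hB.nonneg
  set D0 := D t0 with hD0def
  have hD00 : 0 < D0 := hD0 t0 ht0a ht0b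
  have hD01 : D0 ≤ 1 := hD1 t0 ht0a ht0b
  set C := c / (8 * 2 ^ J) * (N * LL D0) with hC
  have hLL0 : 0 < LL D0 := LL_pos hD00 hD01
  have hC0 : 0 < C := by positivity
  have hΓC : Gam g a b ≤ C := by
    have : C * Cost (Slow v N) ρ a b ≤ C * 1 := mul_le_mul_of_nonneg_left hcost1 hC0.le
    linarith
  -- `C ≤ c² D0 ≤ D0 / 8`
  have hNL : N * LL D0 ≤ c * D0 := by
    have := hNc t0 ht0a ht0b
    calc N * LL D0 = (N * Real.sqrt (1 - Real.log D0)) * D0 := by unfold LL; ring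
      _ ≤ c * D0 := mul_le_mul_of_nonneg_right this hD00.le
  have hCD : C ≤ 1 / 8 * D0 := by
    have h1 : C ≤ c / (8 * 2 ^ J) * (c * D0) := mul_le_mul_of_nonneg_left hNL (by positivity)
    have hJ1 : (1:ℝ) ≤ 2 ^ J := one_le_pow₀ (by norm_num)
    have h2 : c / (8 * 2 ^ J) * (c * D0) ≤ 1 / 8 * (1 * D0) := by
      apply mul_le_mul _ _ (by positivity) (by norm_num)
      · rw [div_le_iff₀ (by positivity)]; linarith
      · exact mul_le_mul_of_nonneg_right hc1' hD00.le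
    linarith
  -- masses
  have hIdiff : ∀ t u, a ≤ t → t ≤ u → u ≤ b →
      |∫ x, f t x ∂(stdGaussian E) - ∫ x, f u x ∂(stdGaussian E)| ≤ C := by
    intro t u h1 h2 h3
    refine (hB.mass t u h1 h2 h3).trans ?_
    exact (gam_mono hg0 h1 h3).trans hΓC
  have hIdiff' : ∀ t, a ≤ t → t ≤ b →
      |∫ x, f t x ∂(stdGaussian E) - ∫ x, f t0 x ∂(stdGaussian E)| ≤ C := by
    intro t h1 h2
    rcases le_total t t0 with h | h
    · exact hIdiff t t0 h1 h ht0b
    · rw [abs_sub_comm]; exact hIdiff t0 t ht0a h h2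
  have hDle : ∀ t, a ≤ t → t ≤ b → D t ≤ 2 * D0 := by
    intro t h1 h2
    have h3 := abs_le.mp (hIdiff' t h1 h2)
    have h4 := abs_le.mp (hmass t h1 h2)
    have h5 := abs_le.mp (hmass t0 ht0a ht0b)
    rw [← hD0def] at h5
    linarith [h3.2, h4.1, h5.2]
  have hDge' : ∀ t, a ≤ t → t ≤ b → D0 ≤ 3 / 2 * D t := by
    intro t h1 h2
    have h3 := abs_le.mp (hIdiff' t h1 h2)
    have h4 := abs_le.mp (hmass t h1 h2)
    have h5 := abs_le.mp (hmass t0 ht0a ht0b)
    rw [← hD0def] at h5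
    linarith [h3.1, h4.2, h5.1]
  have hDge : ∀ t, a ≤ t → t ≤ b → D0 ≤ 2 * D t := by
    intro t h1 h2
    have h3 := hDge' t h1 h2
    have h4 := hD0 t h1 h2
    linarith
  have hLLt : ∀ t, a ≤ t → t ≤ b → LL D0 ≤ 2 * LL (D t) := fun t h1 h2 =>
    LL_le_two hD00 hD01 (hD0 t h1 h2) (hD1 t h1 h2) (hDge t h1 h2)
  have hfu : ∀ t u, a ≤ t → t ≤ b → a ≤ u → u ≤ b →
      ∫ x, f u x ∂(stdGaussian E) ≤ 4 * D t := by
    intro t u h1 h2 h3 h4
    have h5 := abs_le.mp (hmass u h3 h4)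
    have h7 := hDle u h3 h4
    have h8 := hDge' t h1 h2
    have h9 := hD0 t h1 h2
    linarith [h5.2]
  -- the gains at scale `s`
  have hscale : ∀ k : ℕ, ∀ s : ℝ, 0 < s → 1 / s ≤ 2 ^ J * 2 ^ k → 4 / s ≤ 4 * 2 ^ J * 2 ^ k := by
    intro k s hs h1
    have : 4 / s = 4 * (1 / s) := by ring
    rw [this]
    calc 4 * (1 / s) ≤ 4 * (2 ^ J * 2 ^ k) := mul_le_mul_of_nonneg_left h1 (by norm_num)
      _ = _ := by ring
  have hCt : ∀ t, a ≤ t → t ≤ b → C ≤ 2 * (c / (8 * 2 ^ J)) * (N * LL (D t)) := by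
    intro t h1 h2
    calc C = c / (8 * 2 ^ J) * N * LL D0 := by rw [hC]; ring
      _ ≤ c / (8 * 2 ^ J) * N * (2 * LL (D t)) :=
        mul_le_mul_of_nonneg_left (hLLt t h1 h2) (by positivity)
      _ = _ := by ring
  -- the first level
  have key1 : ∀ t, a ≤ t → t ≤ b → ∃ V : Submodule ℝ E, finrank ℝ V ≤ 0 ∧
      ∀ s, 0 < s → s ≤ 1 → 1 / s ≤ 2 ^ J * 2 ^ 1 →
        lev (fun p => ‖(ContinuousLinearMap.id ℝ E - V.starProjection) (mom (f t) s p)‖) s
          ≤ 3000 * c * (1 / 2) ^ 1 * LL (D t) := by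
    intro t h1 h2
    obtain ⟨V, hV⟩ := Vale.Agent.P262.H274.pivot_adm v hN0 hN1 le_rfl hab.le
      (fun hs => hS ⟨1, le_rfl, hs⟩)
    refine ⟨V, by have := hV.1; omega, fun s hs hs1 hss => ?_⟩
    apply level_bound' hf hN0 hB le_rfl le_rfl le_rfl h1 h2 hV (hD0 t h1 h2) (hD1 t h1 h2) hc0 hc1'
      (hNc t h1 h2) (hfu t b h1 h2 hab.le le_rfl) hs hs1
    have h3 := hCt t h1 h2
    have h4 := hscale 1 s hs hss
    have hLLp : 0 < LL (D t) := LL_pos (hD0 t h1 h2) (hD1 t h1 h2)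
    have hG0 : 0 ≤ Gam g a b := Finset.sum_nonneg fun r hr => by
      rw [Finset.mem_Ico] at hr; exact hg0 r hr.1 hr.2
    calc 4 / s * Gam g a b ≤ 4 * 2 ^ J * 2 ^ 1 * (2 * (c / (8 * 2 ^ J)) * (N * LL (D t))) :=
          mul_le_mul h4 (hΓC.trans h3) hG0 (by positivity)
      _ = 2 * (c * (N * LL (D t))) := by field_simp; ring
      _ = _ := by ring
  -- truncated gains
  set g' : ℕ → ℝ := fun t => if a ≤ t ∧ t < b then g t else 0 with hg'
  have hg'0 : ∀ t, 0 ≤ g' t := by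
    intro t
    simp only [hg']
    split_ifs with h1
    · exact hg0 t h1.1 h1.2
    · exact le_rfl
  have hg'G : ∀ l u, a ≤ l → u ≤ b → Gam g' l u = Gam g l u := by
    intro l u h1 h2
    unfold Gam
    apply Finset.sum_congr rfl
    intro t ht
    rw [Finset.mem_Ico] at ht
    simp only [hg']
    rw [if_pos ⟨by omega, by omega⟩]
  have hcc : Gam g' a b ≤ C * Cost (Slow v N) ρ a b := by
    rw [hg'G a b le_rfl le_rfl]; exact hlt.le
  obtain ⟨l, u, h1, h2, t, h3⟩ := Vale.Agent.P262.H274.deterministic_half_adm v hN0 hN1 hρ0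
    (by linarith) hg'0 hab hS hcc
  -- the common time
  obtain ⟨t', ht'a, ht'b, ht'⟩ : ∃ t', a ≤ t' ∧ t' ≤ b ∧ ∀ k, k + 1 ≤ finrank ℝ E →
      l k ≤ t' ∧ t' < u k := by
    rcases Nat.eq_zero_or_pos (finrank ℝ E) with h | h
    · exact ⟨a, le_rfl, hab.le, fun k hk => by omega⟩
    · have h4 := h3 0 (by omega)
      have h5 := h1 0
      exact ⟨t, by omega, by omega, h3⟩
  refine ⟨t', ht'a, ht'b, fun k hk => ?_⟩
  rcases Nat.lt_or_ge k 2 with hk2 | hk2
  · have : k = 1 := by omega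
    subst this
    exact key1 t' ht'a ht'b
  rcases Nat.lt_or_ge k (finrank ℝ E) with hkm | hkm
  · obtain ⟨h4, h5, V, hV⟩ := h2 k hk (by omega)
    have h6 := h1 k
    have h7 := ht' k (by omega)
    refine ⟨V, by have := hV.1; omega, fun s hs hs1 hss => ?_⟩
    have hla : a ≤ l k := h6.1
    have hub : u k ≤ b := h6.2.1
    apply level_bound' hf hN0 hB hk hla hub h7.1 h7.2.le hV
      (hD0 t' ht'a ht'b) (hD1 t' ht'a ht'b) hc0 hc1' (hNc t' ht'a ht'b)
      (hfu t' (u k) ht'a ht'b (by omega) hub) hs hs1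
    have hG0 : 0 ≤ Gam g (l k) (u k) := Finset.sum_nonneg fun r hr => by
      rw [Finset.mem_Ico] at hr; exact hg0 r (by omega) (by omega)
    rw [hg'G (l k) (u k) hla hub] at h5
    have h8 : ρ ^ k ≤ (1 / 324) ^ k := pow_le_pow_left₀ hρ0.le hρ1 k
    have hLLp : 0 < LL (D t') := LL_pos (hD0 t' ht'a ht'b) (hD1 t' ht'a ht'b)
    have h9 : Gam g (l k) (u k) ≤ 6 * (c / (8 * 2 ^ J)) * (1 / 324) ^ k * (N * LL (D t')) := by
      refine h5.trans ?_
      calc 3 * ρ ^ k * C ≤ 3 * (1 / 324) ^ k * C := by gcongr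
        _ ≤ 3 * (1 / 324) ^ k * (2 * (c / (8 * 2 ^ J)) * (N * LL (D t'))) :=
          mul_le_mul_of_nonneg_left (hCt t' ht'a ht'b) (by positivity)
        _ = _ := by ring
    have e9 : (2:ℝ) ^ k * (1 / 324) ^ k = (1 / 162) ^ k := by rw [← mul_pow]; norm_num
    calc 4 / s * Gam g (l k) (u k)
        ≤ 4 * 2 ^ J * 2 ^ k * (6 * (c / (8 * 2 ^ J)) * (1 / 324) ^ k * (N * LL (D t'))) :=
          mul_le_mul (hscale k s hs hss) h9 hG0 (by positivity)
      _ = 3 * (c * (2 ^ k * (1 / 324) ^ k) * (N * LL (D t'))) := by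
          have hJ0 : (2:ℝ) ^ J ≠ 0 := by positivity
          generalize (1 / 324 : ℝ) ^ k = u1
          generalize (2 : ℝ) ^ k = u2
          field_simp; ring
      _ = 3 * (c * (1 / 162) ^ k * (N * LL (D t'))) := by rw [e9]
      _ ≤ 324 * (c * (1 / 162) ^ k * (N * LL (D t'))) :=
        mul_le_mul_of_nonneg_right (by norm_num) (by positivity)
      _ = _ := by ring
  · refine ⟨⊤, by rw [finrank_top]; omega, fun s hs hs1 _ => ?_⟩
    have hLLp : 0 < LL (D t') := LL_pos (hD0 t' ht'a ht'b) (hD1 t' ht'a ht'b)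
    have : ∀ p, ‖(ContinuousLinearMap.id ℝ E - (⊤ : Submodule ℝ E).starProjection)
        (mom (f t') s p)‖ = 0 := by
      intro p
      rw [Submodule.starProjection_top]; simp
    have e : lev (fun p => ‖(ContinuousLinearMap.id ℝ E - (⊤ : Submodule ℝ E).starProjection)
        (mom (f t') s p)‖) s = 0 := by
      unfold lev
      simp only [this]
      simp
    rw [e]; positivity

/-- the level used at scale `2^{-j}` -/
def kJ (J j : ℕ) : ℕ := if j ≤ J then 1 else j - J + 1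

lemma one_le_kJ (J j : ℕ) : 1 ≤ kJ J j := by unfold kJ; split_ifs <;> omega

lemma scale_kJ (J j : ℕ) : 1 / sc j ≤ 2 ^ J * 2 ^ (kJ J j) := by
  have e : 1 / sc j = 2 ^ j := by unfold sc; rw [one_div_pow, one_div_one_div]
  rw [e, ← pow_add]
  apply pow_le_pow_right₀ (by norm_num)
  unfold kJ
  split_ifs <;> omega

/-- the bound of the contribution of one scale -/
def BJ (c : ℝ) (J j : ℕ) : ℝ := 3000 * c * (1 / 2) ^ (kJ J j) + 16 * ((kJ J j : ℝ) - 1) * (1 / 2) ^ j

lemma BJ_nonneg {c : ℝ} (hc : 0 ≤ c) (J j : ℕ) : 0 ≤ BJ c J j := by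
  have : (1:ℝ) ≤ kJ J j := by exact_mod_cast one_le_kJ J j
  unfold BJ
  have h1 : 0 ≤ (kJ J j : ℝ) - 1 := by linarith
  positivity

lemma BJ_small {c : ℝ} {J j : ℕ} (h : j ≤ J) : BJ c J j = 1500 * c := by
  unfold BJ kJ; rw [if_pos h]; norm_num; ring

lemma BJ_big (c : ℝ) (J i : ℕ) : BJ c J (J + i + 1) = 3000 * c * (1 / 2) ^ (i + 2)
    + 16 * (i + 1) * (1 / 2) ^ (J + i + 1) := by
  unfold BJ kJ
  rw [if_neg (by omega)]
  have : J + i + 1 - J + 1 = i + 2 := by omega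
  rw [this]; push_cast; ring

lemma BJ_sum0 (c : ℝ) (J : ℕ) : ∑ j ∈ Finset.range J, BJ c J (j + 1) = J * (1500 * c) := by
  rw [Finset.sum_congr rfl (fun j hj => BJ_small (j := j + 1)
    (by rw [Finset.mem_range] at hj; omega))]
  simp

lemma BJ_sum_big (c : ℝ) (J i : ℕ) : ∑ j ∈ Finset.range (J + i), BJ c J (j + 1)
    = J * (1500 * c) + 1500 * c * (1 - (1 / 2) ^ i)
      + 16 * (1 / 2) ^ J * (2 - (i + 2) * (1 / 2) ^ i) := by
  induction i with
  | zero => rw [add_zero, BJ_sum0]; norm_num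
  | succ i ih =>
    rw [← add_assoc, Finset.sum_range_succ, BJ_big, ih]
    have e : (1 / 2 : ℝ) ^ (J + i + 1) = 1 / 2 * (1 / 2) ^ J * (1 / 2) ^ i := by
      rw [pow_add, pow_add]; ring
    have e2 : (1 / 2 : ℝ) ^ (i + 2) = 1 / 4 * (1 / 2) ^ i := by rw [pow_add]; norm_num; ring
    have e3 : (1 / 2 : ℝ) ^ (i + 1) = 1 / 2 * (1 / 2) ^ i := by rw [pow_succ]; ring
    rw [e, e2, e3]
    push_cast
    ring

lemma BJ_sum {c : ℝ} (hc : 0 ≤ c) (J n : ℕ) :
    ∑ j ∈ Finset.range n, BJ c J (j + 1) ≤ 1500 * c * (J + 1) + 32 * (1 / 2) ^ J := by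
  have h1 : ∑ j ∈ Finset.range n, BJ c J (j + 1) ≤ ∑ j ∈ Finset.range (J + n), BJ c J (j + 1) := by
    apply Finset.sum_le_sum_of_subset_of_nonneg
    · intro x hx; rw [Finset.mem_range] at hx ⊢; omega
    · intro j _ _; exact BJ_nonneg hc _ _
  have h2 := BJ_sum_big c J n
  have h3 : (0:ℝ) < (1 / 2) ^ n := by positivity
  have h4 : (0:ℝ) ≤ (n + 2) * (1 / 2) ^ n := by positivity
  have h5 : 16 * (1 / 2 : ℝ) ^ J * (2 - (n + 2) * (1 / 2) ^ n) ≤ 16 * (1 / 2) ^ J * 2 := by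
    apply mul_le_mul_of_nonneg_left _ (by positivity); linarith
  have h6 : 1500 * c * (1 - (1 / 2 : ℝ) ^ n) ≤ 1500 * c * 1 := by
    apply mul_le_mul_of_nonneg_left _ (by positivity); linarith
  linarith

/-- lower bound of the profile away from `1` -/
lemma LL_le_Ip_b {b t : ℝ} (hb : 0 < b) (h0 : 0 < t) (h1 : t ≤ 1 - b) :
    LL t ≤ 6 / b * Ip t := by
  have hI := Ip_nonneg t
  rcases le_total t (1 / 2) with h | h
  · have h2 := LL_le_Ip_half h0 h
    have h3 : (6:ℝ) ≤ 6 / b := by rw [le_div_iff₀ hb]; linarith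
    exact h2.trans (mul_le_mul_of_nonneg_right h3 hI)
  · have h2 := LL_le_Ip_half (t := 1 - t) (by linarith) (by linarith)
    rw [Ip_symm] at h2
    have h3 := LL_le_one h0.le (by linarith)
    have h4 := le_LL (x := 1 - t) (by linarith) (by linarith)
    rw [div_mul_eq_mul_div, le_div_iff₀ hb]
    have h5 : LL t * b ≤ 1 * b := mul_le_mul_of_nonneg_right h3 hb.le
    linarith

/-- **GAIN-COST LEMMA, labels of health at least `β`, two-sided visible fields.** The field `f t` is only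
required to be close in mean to the indicator of the complement of the convex body `K t`. -/
theorem gain_cost_b {f : ℕ → E → ℝ} (hf : ∀ t, UI (f t)) {K : ℕ → Set E}
    {v : ℕ → E} {g : ℕ → ℝ} {N ρ : ℝ} (hN0 : 0 < N) (hN1 : N ≤ 1)
    (hρ0 : 0 < ρ) (hρ1 : ρ ≤ 1 / 324) {β c : ℝ} {J : ℕ} (hβ0 : 0 < β) (hc0 : 0 < c)
    (hc1 : c ≤ 1 / 8) (hJ : 1500 * c * (J + 1) + 32 * (1 / 2) ^ J ≤ β / 300)
    {a b : ℕ} (hab : a < b)
    (hB : ScaleBds f v g N a b)
    (hK : ∀ t, a ≤ t → t ≤ b → Convex ℝ (K t))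
    (hKm : ∀ t, a ≤ t → t ≤ b → MeasurableSet (K t))
    (hD0 : ∀ t, a ≤ t → t ≤ b → 0 < (stdGaussian E).real (K t)ᶜ)
    (hD1 : ∀ t, a ≤ t → t ≤ b → (stdGaussian E).real (K t)ᶜ ≤ 1 - β)
    (hNc : ∀ t, a ≤ t → t ≤ b →
      N * Real.sqrt (1 - Real.log ((stdGaussian E).real (K t)ᶜ)) ≤ c)
    (hhid : ∀ t, a ≤ t → t ≤ b →
      ∫ x, |f t x - (K t)ᶜ.indicator (fun _ => (1:ℝ)) x| ∂(stdGaussian E)
        ≤ (β / 2000) ^ 2 * (stdGaussian E).real (K t)ᶜ)
    (hS : ¬ Slow v N 1 a b) {t0 : ℕ} (ht0a : a ≤ t0) (ht0b : t0 ≤ b) :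
    c / (8 * 2 ^ J) * (N * LL ((stdGaussian E).real (K t0)ᶜ)) * Cost (Slow v N) ρ a b
      ≤ Gam g a b := by
  by_contra hlt
  rw [not_le] at hlt
  have hβ1 : β ≤ 1 := by
    have h1 := hD0 t0 ht0a ht0b
    have h2 := hD1 t0 ht0a ht0b
    linarith
  have hη0 : 0 < (β / 2000) ^ 2 := by positivity
  have hη1 : (β / 2000) ^ 2 ≤ 1 / 8 * 1 := by nlinarith
  have hη8 : (β / 2000) ^ 2 ≤ 1 / 8 := by linarith
  obtain ⟨t, hta, htb, hlev⟩ := levels3 J (c := c) (D := fun t => Dm (K t)) hf hN0 hN1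
    hc0 hc1 hρ0 hρ1 hab hB hD0 (fun t _ _ => measureReal_le_one) hNc
    (fun t h1 h2 => by
      have h3 := hhid t h1 h2
      have h4 := hD0 t h1 h2
      have h5 : Dm (K t) = ∫ x, (K t)ᶜ.indicator (fun _ => (1:ℝ)) x ∂(stdGaussian E) := by
        rw [integral_indicator_const _ (hKm t h1 h2).compl]; simp [Dm]
      have h6 : Integrable ((K t)ᶜ.indicator (fun _ => (1:ℝ))) (stdGaussian E) :=
        (UI.indicator (hKm t h1 h2).compl).integrable _
      have h7 : |∫ x, f t x ∂(stdGaussian E) - Dm (K t)|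
          ≤ ∫ x, |f t x - (K t)ᶜ.indicator (fun _ => (1:ℝ)) x| ∂(stdGaussian E) := by
        rw [h5, ← integral_sub ((hf t).integrable _) h6]
        exact abs_integral_le_integral_abs
      refine h7.trans (h3.trans ?_)
      exact mul_le_mul_of_nonneg_right hη8 h4.le) hS ht0a ht0b hlt
  choose V hV1 hV2 using hlev
  have hKt := hK t hta htb
  have hKmt := hKm t hta htb
  set D := Dm (K t) with hD
  have hDpos : 0 < D := hD0 t hta htb
  have hD78 : D ≤ 1 - β := hD1 t hta htb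
  have hD1' : D ≤ 1 := by linarith
  have hLL0 : 0 < LL D := LL_pos hDpos hD1'
  set W : ℕ → Submodule ℝ E := fun j => V (kJ J j) (one_le_kJ J j) with hW
  have hsc : ∀ j, sc j = (1 / 2 : ℝ) ^ j := fun j => rfl
  -- the three fields
  set e : E → ℝ := (K t)ᶜ.indicator (fun _ => (1:ℝ)) with he
  have heU : UI e := UI.indicator hKmt.compl
  have he01 : ∀ x, e x = 0 ∨ e x = 1 := fun x => by
    rw [he]
    by_cases hx : x ∈ (K t)ᶜ
    · right; rw [indicator_of_mem hx]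
    · left; rw [indicator_of_notMem hx]
  set f1 : E → ℝ := fun x => f t x * e x with hf1
  set h1 : E → ℝ := fun x => (1 - f t x) * e x with hh1
  set r1 : E → ℝ := fun x => f t x * (1 - e x) with hr1
  have hfn := (hf t).nonneg
  have hfo := (hf t).le_one
  have f1U : UI f1 := ⟨(hf t).meas.mul heU.meas, fun x => mul_nonneg (hfn x) (heU.nonneg x),
    fun x => mul_le_one₀ (hfo x) (heU.nonneg x) (heU.le_one x)⟩
  have h1U : UI h1 := ⟨(measurable_const.sub (hf t).meas).mul heU.meas,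
    fun x => mul_nonneg (by linarith [hfo x]) (heU.nonneg x),
    fun x => mul_le_one₀ (by linarith [hfn x]) (heU.nonneg x) (heU.le_one x)⟩
  have r1U : UI r1 := ⟨(hf t).meas.mul (measurable_const.sub heU.meas),
    fun x => mul_nonneg (hfn x) (by linarith [heU.le_one x]),
    fun x => mul_le_one₀ (hfo x) (by linarith [heU.le_one x]) (by linarith [heU.nonneg x])⟩
  have efh : (fun x => f1 x + h1 x) = e := by
    funext x; simp only [hf1, hh1]; ring
  have efr : (fun x => f1 x + r1 x) = f t := by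
    funext x; simp only [hf1, hr1]; ring
  have habs1 : ∀ x, h1 x + r1 x = |f t x - e x| := by
    intro x
    simp only [hh1, hr1]
    rcases he01 x with h | h
    · rw [h, abs_of_nonneg (by rw [sub_zero]; exact hfn x)]; ring
    · rw [h, abs_of_nonpos (by linarith [hfo x])]; ring
  set I := ∫ x, f1 x ∂(stdGaussian E) with hI
  set H := ∫ x, h1 x ∂(stdGaussian E) with hH
  set R := ∫ x, r1 x ∂(stdGaussian E) with hR
  have hH0 : 0 ≤ H := integral_nonneg fun x => h1U.nonneg x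
  have hR0 : 0 ≤ R := integral_nonneg fun x => r1U.nonneg x
  have hHR : H + R ≤ (β / 2000) ^ 2 * D := by
    rw [hH, hR, ← integral_add (h1U.integrable _) (r1U.integrable _)]
    simp only [habs1]
    exact hhid t hta htb
  -- sum over the scales
  have hsum : ∀ n, ∑ j ∈ Finset.range n,
      (lev (fun p => ‖(ContinuousLinearMap.id ℝ E - (W (j + 1)).starProjection)
          (mom (fun x => f1 x + r1 x) (sc (j + 1)) p)‖) (sc (j + 1))
        + lev (fun p => ‖(W (j + 1)).starProjection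
          (mom (fun x => f1 x + h1 x) (sc (j + 1)) p)‖) (sc (j + 1)))
      ≤ β / 300 * LL D := by
    intro n
    refine le_trans (Finset.sum_le_sum (g := fun j => BJ c J (j + 1) * LL D) fun j _ => ?_) ?_
    · have h1 := hV2 (kJ J (j + 1)) (one_le_kJ J _) (sc (j + 1)) (sc_pos _) (sc_le_one _)
        (scale_kJ J (j + 1))
      have h2 := lev_few hKt hKmt (W (j + 1)) (sc_pos (j + 1)) (sc_le_one (j + 1))
      rw [efh, efr]
      have h3 : (finrank ℝ (W (j + 1)) : ℝ) ≤ 2 * ((kJ J (j + 1) : ℝ) - 1) := by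
        have h4 := hV1 (kJ J (j + 1)) (one_le_kJ J _)
        have h5 := one_le_kJ J (j + 1)
        have h6 : (finrank ℝ (W (j + 1)) : ℝ) ≤ ((2 * (kJ J (j + 1) - 1) : ℕ) : ℝ) := by
          exact_mod_cast h4
        rw [Nat.cast_mul, Nat.cast_sub h5] at h6
        simpa using h6
      have h7 : Ip (D / 2) ≤ 2 * LL D := Ip_le_LL' (by linarith) (by linarith) hD1'
      have h8 : 0 ≤ Ip (D / 2) := Ip_nonneg _
      have h9 : 0 < sc (j + 1) := sc_pos _
      have h12 : (1:ℝ) ≤ kJ J (j + 1) := by exact_mod_cast one_le_kJ J (j + 1)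
      have h10 : lev (fun p => ‖(W (j + 1)).starProjection
          (mom ((K t)ᶜ.indicator fun _ => (1:ℝ)) (sc (j + 1)) p)‖) (sc (j + 1))
          ≤ 2 * ((kJ J (j + 1) : ℝ) - 1) * (2 * sc (j + 1) * (2 * LL D)) := by
        refine h2.trans ?_
        exact mul_le_mul h3 (mul_le_mul_of_nonneg_left h7 (by positivity)) (by positivity)
          (le_trans (Nat.cast_nonneg _) h3)
      have h11 : 0 ≤ 2 * ((kJ J (j + 1) : ℝ) - 1) * (2 * sc (j + 1) * (2 * LL D)) := by
        have : 0 ≤ (kJ J (j + 1) : ℝ) - 1 := by linarith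
        positivity
      have e2 : BJ c J (j + 1) * LL D = 3000 * c * (1 / 2) ^ (kJ J (j + 1)) * LL D
          + 2 * (2 * ((kJ J (j + 1) : ℝ) - 1) * (2 * sc (j + 1) * (2 * LL D))) := by
        rw [hsc]; unfold BJ; ring
      rw [e2]
      linarith
    · rw [← Finset.sum_mul]
      exact mul_le_mul_of_nonneg_right ((BJ_sum hc0.le J n).trans hJ) hLL0.le
  have hvis := vis_multiscale2 f1U h1U r1U
    (fun x => by
      have : f1 x + h1 x = e x := congrFun efh x
      rw [this]; exact heU.le_one x)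
    (fun x => by
      have : f1 x + r1 x = f t x := congrFun efr x
      rw [this]; exact hfo x)
    (fun j => ContinuousLinearMap.id ℝ E - (W j).starProjection) (fun j => (W j).starProjection)
    (fun j x => by simp) (fun j x => by
      have h1 : (ContinuousLinearMap.id ℝ E - (W j).starProjection) x = (W j)ᗮ.starProjection x := by
        rw [Submodule.starProjection_orthogonal]
      rw [h1]
      exact Submodule.norm_starProjection_apply_le _ _)
    (fun j x => Submodule.norm_starProjection_apply_le _ _) hsum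
  -- masses
  have hIH : I + H = D := by
    rw [hI, hH, ← integral_add (f1U.integrable _) (h1U.integrable _), efh, he,
      integral_indicator_const _ hKmt.compl]
    simp [hD, Dm]
  have hIpS : ∀ x, 0 ≤ x → x ≤ (β / 2000) ^ 2 * D → Ip x ≤ β / 1000 * LL D := by
    intro x hx0 hx1
    have h0 : (β / 2000) ^ 2 * D ≤ 1 := by nlinarith
    have h1 : Ip x ≤ 2 * LL ((β / 2000) ^ 2 * D) := Ip_le_LL' hx0 hx1 h0
    have h2 : LL ((β / 2000) ^ 2 * D) ≤ LL ((β / 2000) ^ 2) * LL D :=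
      LL_mul_le hη0 (by linarith) hDpos hD1'
    have h3 : LL ((β / 2000) ^ 2) ≤ β / 2000 := by
      refine (LL_le_sqrt hη0).trans ?_
      rw [Real.sqrt_sq (by positivity)]
    have h4 : LL ((β / 2000) ^ 2) * LL D ≤ β / 2000 * LL D := mul_le_mul_of_nonneg_right h3 hLL0.le
    linarith
  have hIpH : Ip H ≤ β / 1000 * LL D := hIpS H hH0 (by linarith)
  have hIpR : Ip R ≤ β / 1000 * LL D := hIpS R hR0 (by linarith)
  have hIpf : ∫ x, Ip (f1 x) ∂(stdGaussian E) ≤ Ip H := by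
    have h2 : ∀ x, Ip (f1 x) = Ip (h1 x) := by
      intro x
      simp only [hf1, hh1]
      rcases he01 x with h | h
      · rw [h, mul_zero, mul_zero]
      · rw [h, mul_one, mul_one, Ip_symm]
    simp only [h2]
    exact Ip_jensen h1U
  have hIpI : β * LL D ≤ 12 * Ip I := by
    have hHD : H ≤ 1 / 2 * D := by
      have : (β / 2000) ^ 2 * D ≤ 1 / 8 * D := mul_le_mul_of_nonneg_right hη8 hDpos.le
      linarith
    have h1 : LL I ≤ 6 / β * Ip I := LL_le_Ip_b hβ0 (by linarith) (by linarith)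
    have h2 : 1 / 2 * LL D ≤ LL (1 / 2 * D) := mul_LL_le (by norm_num) (by norm_num) hDpos hD1'
    have h3 : LL (1 / 2 * D) ≤ LL I := LL_mono (by linarith) (by linarith) (by linarith)
    have h4 : LL D ≤ 12 / β * Ip I := by
      have : 12 / β * Ip I = 2 * (6 / β * Ip I) := by ring
      linarith
    rw [div_mul_eq_mul_div, le_div_iff₀ hβ0] at h4
    linarith
  have hpos : 0 < β * LL D := by positivity
  have e1 : β / 1000 * LL D = 1 / 1000 * (β * LL D) := by ring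
  have e2 : β / 300 * LL D = 1 / 300 * (β * LL D) := by ring
  rw [e1] at hIpH hIpR
  rw [e2] at hvis
  linarith

/-- The constants of `gain_cost_b` exist for every `β > 0`. -/
theorem exists_const {β : ℝ} (hβ : 0 < β) : ∃ c : ℝ, ∃ J : ℕ, 0 < c ∧ c ≤ 1 / 8 ∧
    1500 * c * (J + 1) + 32 * (1 / 2) ^ J ≤ β / 300 := by
  obtain ⟨J, hJ⟩ := exists_pow_lt_of_lt_one (show (0:ℝ) < β / 20000 by positivity)
    (show (1 / 2 : ℝ) < 1 by norm_num)
  refine ⟨min (1 / 8) (β / (900000 * (J + 1))), J, lt_min (by norm_num) (by positivity),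
    min_le_left _ _, ?_⟩
  have h1 : min (1 / 8) (β / (900000 * ((J:ℝ) + 1))) * (J + 1) ≤ β / 900000 := by
    have h2 : (0:ℝ) < J + 1 := by positivity
    calc min (1 / 8) (β / (900000 * ((J:ℝ) + 1))) * (J + 1)
        ≤ β / (900000 * ((J:ℝ) + 1)) * (J + 1) :=
          mul_le_mul_of_nonneg_right (min_le_right _ _) h2.le
      _ = β / 900000 := by field_simp
  have e : 1500 * min (1 / 8) (β / (900000 * ((J:ℝ) + 1))) * (J + 1)
      = 1500 * (min (1 / 8) (β / (900000 * ((J:ℝ) + 1))) * (J + 1)) := by ring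
  rw [e]
  linarith

end

end Vale.Agent.P262.H998
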