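import Vale.Agent.P262.H998.GCHb
import Vale.Agent.P262.H941.GainCost5

/-!
# The gain-cost lemma along a refined sequence of fields, labels of health at least `b₁`

`gain_cost_ref` and `gain_cost_mid_soft` of `H941/GainCost5.lean` with `D ≤ 7 / 8` replaced by
`D ≤ 1 - b₁`, for any `b₁ > 0`.
-/

set_option linter.unusedSectionVars false

namespace Vale.Agent.P262.H998

open MeasureTheory ProbabilityTheory Set Filter Topology Module
open scoped RealInnerProductSpace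
open Vale.Agent.P262.H847 Vale.Agent.P262.H912 Vale.Agent.P262.H941
open Vale.Agent.P262.H274 (Slow SlowEx PivotAt Cost Gam mix dbl mix_even mix_odd mix_UI
  sum_Ico_double fluxLe_zero)
open Vale.Agent.P262.H174 (Soft scaleBds_of_soft)

variable {E : Type*} [NormedAddCommGroup E] [InnerProductSpace ℝ E] [FiniteDimensional ℝ E]
  [MeasurableSpace E] [BorelSpace E]

noncomputable section

/-- **GAIN-COST LEMMA along a refined sequence, labels of health at least `b₁`, two-sided visible fields.**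
`e s` are all the intermediate fields, `τ t` is the index of the real time `t`, `σ t` the index of
the field at which the flux in the direction `v t` is taken.  All moves `e s → e (s + 1)` are soft.
Convexity and closeness to the indicator of the complement of `K t` are required only at the real
times. -/
theorem gain_cost_b_ref {e : ℕ → E → ℝ} (he : ∀ s, UI (e s)) {K : ℕ → Set E}
    {v : ℕ → E} {F α β : ℕ → ℝ} {N ρ : ℝ} (hN0 : 0 < N) (hN1 : N ≤ 1)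
    (hρ0 : 0 < ρ) (hρ1 : ρ ≤ 1 / 324)
    {b₁ c : ℝ} {J : ℕ} (hb₁ : 0 < b₁) (hc0 : 0 < c) (hc1 : c ≤ 1 / 8)
    (hJ : 1500 * c * (J + 1) + 32 * (1 / 2) ^ J ≤ b₁ / 300) {τ σ : ℕ → ℕ} (hτ : Monotone τ) {a b : ℕ} (hab : a < b)
    (hσ : ∀ t, a ≤ t → t < b → τ t ≤ σ t ∧ σ t < τ (t + 1))
    (hF : ∀ t, a ≤ t → t < b → FluxLe (e (σ t)) (v t) (F t))
    (hso : ∀ s, τ a ≤ s → s < τ b → Soft (e s) (e (s + 1)) (α s) (β s))
    (hβ : ∀ s, τ a ≤ s → s < τ b → 0 ≤ β s)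
    (hK : ∀ t, a ≤ t → t ≤ b → Convex ℝ (K t))
    (hKm : ∀ t, a ≤ t → t ≤ b → MeasurableSet (K t))
    (hD0 : ∀ t, a ≤ t → t ≤ b → 0 < (stdGaussian E).real (K t)ᶜ)
    (hD1 : ∀ t, a ≤ t → t ≤ b → (stdGaussian E).real (K t)ᶜ ≤ 1 - b₁)
    (hNc : ∀ t, a ≤ t → t ≤ b →
      N * Real.sqrt (1 - Real.log ((stdGaussian E).real (K t)ᶜ)) ≤ c)
    (hhid : ∀ t, a ≤ t → t ≤ b →
      ∫ x, |e (τ t) x - (K t)ᶜ.indicator (fun _ => (1:ℝ)) x| ∂(stdGaussian E)
        ≤ (b₁ / 2000) ^ 2 * (stdGaussian E).real (K t)ᶜ)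
    (hS : ¬ Slow v N 1 a b) {t0 : ℕ} (ht0a : a ≤ t0) (ht0b : t0 ≤ b) :
    c / (8 * 2 ^ J) * (N * LL ((stdGaussian E).real (K t0)ᶜ)) * Cost (Slow v N) ρ a b
      ≤ Gam F a b + Gam (fun s => α s + β s) (τ a) (τ b) := by
  obtain ⟨G, hB, hG⟩ := scaleBds_ref he hN0.le hτ hσ hF hso hβ
  have h := gain_cost_b (f := fun t => e (τ t)) (fun t => he _) hN0 hN1 hρ0 hρ1 hb₁ hc0 hc1 hJ hab hB hK hKm
    hD0 hD1 hNc hhid hS ht0a ht0b
  rw [hG a b le_rfl hab.le le_rfl] at h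
  exact h

/-- **GAIN-COST LEMMA with one middle field per step.** -/
theorem gain_cost_b_mid_soft {f fh : ℕ → E → ℝ} (hf : ∀ t, UI (f t)) (hfh : ∀ t, UI (fh t))
    {K : ℕ → Set E} {v : ℕ → E} {F α β α' β' : ℕ → ℝ} {N ρ : ℝ} (hN0 : 0 < N) (hN1 : N ≤ 1)
    (hρ0 : 0 < ρ) (hρ1 : ρ ≤ 1 / 324)
    {b₁ c : ℝ} {J : ℕ} (hb₁ : 0 < b₁) (hc0 : 0 < c) (hc1 : c ≤ 1 / 8)
    (hJ : 1500 * c * (J + 1) + 32 * (1 / 2) ^ J ≤ b₁ / 300) {a b : ℕ} (hab : a < b)
    (hF : ∀ t, a ≤ t → t < b → FluxLe (fh t) (v t) (F t))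
    (hso : ∀ t, a ≤ t → t < b → Soft (f t) (fh t) (α t) (β t))
    (hso' : ∀ t, a ≤ t → t < b → Soft (fh t) (f (t + 1)) (α' t) (β' t))
    (hβ : ∀ t, a ≤ t → t < b → 0 ≤ β t) (hβ' : ∀ t, a ≤ t → t < b → 0 ≤ β' t)
    (hK : ∀ t, a ≤ t → t ≤ b → Convex ℝ (K t))
    (hKm : ∀ t, a ≤ t → t ≤ b → MeasurableSet (K t))
    (hD0 : ∀ t, a ≤ t → t ≤ b → 0 < (stdGaussian E).real (K t)ᶜ)
    (hD1 : ∀ t, a ≤ t → t ≤ b → (stdGaussian E).real (K t)ᶜ ≤ 1 - b₁)
    (hNc : ∀ t, a ≤ t → t ≤ b →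
      N * Real.sqrt (1 - Real.log ((stdGaussian E).real (K t)ᶜ)) ≤ c)
    (hhid : ∀ t, a ≤ t → t ≤ b →
      ∫ x, |f t x - (K t)ᶜ.indicator (fun _ => (1:ℝ)) x| ∂(stdGaussian E)
        ≤ (b₁ / 2000) ^ 2 * (stdGaussian E).real (K t)ᶜ)
    (hS : ¬ Slow v N 1 a b) {t0 : ℕ} (ht0a : a ≤ t0) (ht0b : t0 ≤ b) :
    c / (8 * 2 ^ J) * (N * LL ((stdGaussian E).real (K t0)ᶜ)) * Cost (Slow v N) ρ a b
      ≤ Gam (fun t => F t + (α t + α' t) + (β t + β' t)) a b := by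
  have hτ : Monotone (fun t : ℕ => 2 * t) := fun x y h => Nat.mul_le_mul_left 2 h
  have hsoft : ∀ s, 2 * a ≤ s → s < 2 * b →
      Soft (mix f fh s) (mix f fh (s + 1)) (mix α α' s) (mix β β' s) := by
    intro s hs1 hs2
    rcases Nat.even_or_odd' s with ⟨t, rfl | rfl⟩
    · simp only [mix_even, mix_odd]; exact hso t (by omega) (by omega)
    · rw [show 2 * t + 1 + 1 = 2 * (t + 1) by ring]
      simp only [mix_even, mix_odd]; exact hso' t (by omega) (by omega)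
  have h := gain_cost_b_ref (e := mix f fh) (mix_UI hf hfh) (K := K) (v := v) (F := F)
    (α := mix α α') (β := mix β β') hN0 hN1 hρ0 hρ1 hb₁ hc0 hc1 hJ (τ := fun t => 2 * t)
    (σ := fun t => 2 * t + 1) hτ hab (fun t _ _ => ⟨by omega, by omega⟩)
    (fun t h1 h2 => by
      show FluxLe (mix f fh (2 * t + 1)) (v t) (F t)
      rw [mix_odd]; exact hF t h1 h2) hsoft
    (fun s hs1 hs2 => by
      rcases Nat.even_or_odd' s with ⟨t, rfl | rfl⟩
      · rw [mix_even]; exact hβ t (by omega) (by omega)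
      · rw [mix_odd]; exact hβ' t (by omega) (by omega))
    hK hKm hD0 hD1 hNc
    (fun t h1 h2 => by
      show ∫ x, |mix f fh (2 * t) x - (K t)ᶜ.indicator (fun _ => (1:ℝ)) x| ∂(stdGaussian E) ≤ _
      rw [mix_even]; exact hhid t h1 h2) hS ht0a ht0b
  refine h.trans (le_of_eq ?_)
  have e1 : Gam (fun s => mix α α' s + mix β β' s) (2 * a) (2 * b)
      = Gam (mix α α') (2 * a) (2 * b) + Gam (mix β β') (2 * a) (2 * b) := by
    unfold Gam; rw [← Finset.sum_add_distrib]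
  show Gam F a b + Gam (fun s => mix α α' s + mix β β' s) (2 * a) (2 * b) = _
  rw [e1, gam_mix_mix α α' hab.le, gam_mix_mix β β' hab.le]
  unfold Gam
  rw [← Finset.sum_add_distrib, ← Finset.sum_add_distrib]
  exact Finset.sum_congr rfl fun t _ => by ring

end

end Vale.Agent.P262.H998
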