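import Vale.Agent.P262.H837.ThrE
import Vale.Agent.P262.H941.Lbl

/-!
# P262, the scalar functional of the throughput with classes, part 1

`hq q y = y + q y log(1/y)` is concave and increasing on `[0,1]`; `gm q s y = (hq q (min y 1))^s`
is concave and increasing on all of `[0,oo)`; `Gq q s` is the same function on `ENNReal`.
-/

set_option linter.all false

open MeasureTheory ProbabilityTheory Set
open scoped ENNReal RealInnerProductSpace Pointwise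

namespace Vale.Agent.P262.H998

open Vale.Agent.P262.H395

/-! ### the real functions -/

/-- `y (1 + q log(1/y))` -/
noncomputable def hq (q y : ℝ) : ℝ := y + q * Real.negMulLog y

lemma hq_zero (q : ℝ) : hq q 0 = 0 := by simp [hq]

lemma hq_one (q : ℝ) : hq q 1 = 1 := by simp [hq]

lemma continuous_hq (q : ℝ) : Continuous (hq q) := by
  unfold hq
  exact continuous_id.add (Real.continuous_negMulLog.const_mul q)

lemma hq_le_one {q y : ℝ} (hq0 : 0 ≤ q) (hq1 : q ≤ 1) (hy : 0 ≤ y) (hy1 : y ≤ 1) : hq q y ≤ 1 := by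
  rcases hy.eq_or_lt with h | h
  · rw [← h, hq_zero]; norm_num
  · have h1 : Real.negMulLog y ≤ 1 - y := by
      have h2 := Real.one_sub_inv_le_log_of_pos h
      unfold Real.negMulLog
      have h3 : y * (1 - y⁻¹) ≤ y * Real.log y := mul_le_mul_of_nonneg_left h2 h.le
      have h4 : y * (1 - y⁻¹) = y - 1 := by
        rw [mul_sub, mul_one, mul_inv_cancel₀ h.ne']
      linarith
    unfold hq
    nlinarith

lemma negMulLog_nonneg' {y : ℝ} (hy : 0 ≤ y) (hy1 : y ≤ 1) : 0 ≤ Real.negMulLog y :=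
  Real.negMulLog_nonneg hy hy1

lemma le_hq {q y : ℝ} (hq0 : 0 ≤ q) (hy : 0 ≤ y) (hy1 : y ≤ 1) : y ≤ hq q y := by
  unfold hq
  have := mul_nonneg hq0 (negMulLog_nonneg' hy hy1)
  linarith

lemma hq_nonneg {q y : ℝ} (hq0 : 0 ≤ q) (hy : 0 ≤ y) (hy1 : y ≤ 1) : 0 ≤ hq q y :=
  hy.trans (le_hq hq0 hy hy1)

lemma hq_mono_q {q q' y : ℝ} (h : q ≤ q') (hy : 0 ≤ y) (hy1 : y ≤ 1) : hq q y ≤ hq q' y := by
  unfold hq
  have := mul_le_mul_of_nonneg_right h (negMulLog_nonneg' hy hy1)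
  linarith

/-- `hq (l q) ≤ l hq q` for `l ≥ 1` -/
lemma hq_scale {q l y : ℝ} (hl : 1 ≤ l) (hy : 0 ≤ y) : hq (l * q) y ≤ l * hq q y := by
  unfold hq
  nlinarith

lemma concaveOn_hq {q : ℝ} (hq0 : 0 ≤ q) : ConcaveOn ℝ (Ici 0) (hq q) := by
  unfold hq
  exact (concaveOn_id (convex_Ici 0)).add (Real.concaveOn_negMulLog.smul hq0)

lemma hq_mono {q x y : ℝ} (hq0 : 0 ≤ q) (hq1 : q ≤ 1) (hx : 0 ≤ x) (hxy : x ≤ y) (hy1 : y ≤ 1) :
    hq q x ≤ hq q y := by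
  rcases hxy.eq_or_lt with h | h
  · rw [h]
  · have hc := concaveOn_hq hq0
    have hL : 0 < 1 - x := by linarith
    have a1 : 0 ≤ (1 - y) / (1 - x) := div_nonneg (by linarith) hL.le
    have a2 : 0 ≤ (y - x) / (1 - x) := div_nonneg (by linarith) hL.le
    have a3 : (1 - y) / (1 - x) + (y - x) / (1 - x) = 1 := by
      rw [← add_div, div_eq_one_iff_eq hL.ne']; ring
    have h1 := hc.2 (mem_Ici.mpr hx) (mem_Ici.mpr (zero_le_one (α := ℝ))) a1 a2 a3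
    simp only [smul_eq_mul, mul_one] at h1
    have e1 : (1 - y) / (1 - x) * x + (y - x) / (1 - x) = y := by
      field_simp; ring
    rw [e1, hq_one, mul_one] at h1
    have h2 := hq_le_one hq0 hq1 hx (by linarith)
    have e2 : (1 - y) / (1 - x) = 1 - (y - x) / (1 - x) := by linarith
    rw [e2] at h1
    nlinarith

/-- extension to all `y ≥ 0` -/
noncomputable def hm (q y : ℝ) : ℝ := hq q (min y 1)

lemma continuous_hm (q : ℝ) : Continuous (hm q) :=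
  (continuous_hq q).comp (continuous_id.min continuous_const)

lemma hm_nonneg {q y : ℝ} (hq0 : 0 ≤ q) (hy : 0 ≤ y) : 0 ≤ hm q y :=
  hq_nonneg hq0 (le_min hy zero_le_one) (min_le_right _ _)

lemma hm_le_one {q y : ℝ} (hq0 : 0 ≤ q) (hq1 : q ≤ 1) (hy : 0 ≤ y) : hm q y ≤ 1 :=
  hq_le_one hq0 hq1 (le_min hy zero_le_one) (min_le_right _ _)

lemma hm_mono {q x y : ℝ} (hq0 : 0 ≤ q) (hq1 : q ≤ 1) (hx : 0 ≤ x) (hxy : x ≤ y) :
    hm q x ≤ hm q y :=
  hq_mono hq0 hq1 (le_min hx zero_le_one) (min_le_min_right _ hxy) (min_le_right _ _)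

lemma hm_zero (q : ℝ) : hm q 0 = 0 := by
  unfold hm
  rw [min_eq_left zero_le_one, hq_zero]

lemma concaveOn_hm {q : ℝ} (hq0 : 0 ≤ q) (hq1 : q ≤ 1) : ConcaveOn ℝ (Ici 0) (hm q) := by
  refine ⟨convex_Ici 0, ?_⟩
  intro x hx y hy a b ha hb hab
  have hx' : (0 : ℝ) ≤ x := hx
  have hy' : (0 : ℝ) ≤ y := hy
  have h1 := (concaveOn_hq hq0).2 (show min x 1 ∈ Ici (0 : ℝ) from le_min hx' zero_le_one)
    (show min y 1 ∈ Ici (0 : ℝ) from le_min hy' zero_le_one) ha hb hab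
  refine h1.trans ?_
  simp only [smul_eq_mul]
  unfold hm
  apply hq_mono hq0 hq1
  · have := mul_nonneg ha (le_min hx' zero_le_one)
    have := mul_nonneg hb (le_min hy' zero_le_one)
    linarith
  · apply le_min
    · have h2 := mul_le_mul_of_nonneg_left (min_le_left x 1) ha
      have h3 := mul_le_mul_of_nonneg_left (min_le_left y 1) hb
      linarith
    · have h2 := mul_le_mul_of_nonneg_left (min_le_right x 1) ha
      have h3 := mul_le_mul_of_nonneg_left (min_le_right y 1) hb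
      linarith
  · exact min_le_right _ _

/-- the power -/
noncomputable def gm (q s y : ℝ) : ℝ := hm q y ^ s

lemma gm_nonneg {q s y : ℝ} (hq0 : 0 ≤ q) (hy : 0 ≤ y) : 0 ≤ gm q s y :=
  Real.rpow_nonneg (hm_nonneg hq0 hy) s

lemma gm_mono {q s x y : ℝ} (hq0 : 0 ≤ q) (hq1 : q ≤ 1) (hs : 0 ≤ s) (hx : 0 ≤ x) (hxy : x ≤ y) :
    gm q s x ≤ gm q s y :=
  Real.rpow_le_rpow (hm_nonneg hq0 hx) (hm_mono hq0 hq1 hx hxy) hs

lemma concaveOn_gm {q s : ℝ} (hq0 : 0 ≤ q) (hq1 : q ≤ 1) (h0 : 0 ≤ s) (h1 : s ≤ 1) :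
    ConcaveOn ℝ (Ici 0) (gm q s) := by
  refine ⟨convex_Ici 0, ?_⟩
  intro x hx y hy a b ha hb hab
  have hx' : (0 : ℝ) ≤ x := hx
  have hy' : (0 : ℝ) ≤ y := hy
  have e1 := (concaveOn_hm hq0 hq1).2 hx hy ha hb hab
  have e2 := (Real.concaveOn_rpow h0 h1).2 (show hm q x ∈ Ici (0 : ℝ) from hm_nonneg hq0 hx')
    (show hm q y ∈ Ici (0 : ℝ) from hm_nonneg hq0 hy') ha hb hab
  refine e2.trans ?_
  have e3 : 0 ≤ a • hm q x + b • hm q y := by
    simp only [smul_eq_mul]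
    have := mul_nonneg ha (hm_nonneg hq0 hx')
    have := mul_nonneg hb (hm_nonneg hq0 hy')
    linarith
  exact Real.rpow_le_rpow e3 e1 h0

/-- four points, for any function concave on `[0,oo)` -/
lemma four_of_concave {f : ℝ → ℝ} (hf : ConcaveOn ℝ (Ici 0) f) {D M δ : ℝ} (hM : 0 ≤ M)
    (hMD : M ≤ D) (hδ : 0 ≤ δ) : f (D + δ) + f M ≤ f D + f (M + δ) := by
  rcases eq_or_lt_of_le (show 0 ≤ D + δ - M by linarith) with hL | hL
  · have h2 : D = M := by linarith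
    have h3 : δ = 0 := by linarith
    subst h2; subst h3
    simp
  · have hx : M ∈ Ici (0 : ℝ) := hM
    have hy : D + δ ∈ Ici (0 : ℝ) := by
      show 0 ≤ D + δ
      linarith
    set L := D + δ - M with hLdef
    have a1 : 0 ≤ (D - M) / L := div_nonneg (by linarith) hL.le
    have a2 : 0 ≤ δ / L := div_nonneg hδ hL.le
    have a3 : (D - M) / L + δ / L = 1 := by
      rw [← add_div, div_eq_one_iff_eq hL.ne']
      rw [hLdef]; ring
    have a4 : δ / L + (D - M) / L = 1 := by rw [add_comm]; exact a3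
    have e1 := hf.2 hx hy a1 a2 a3
    have e2 := hf.2 hx hy a2 a1 a4
    simp only [smul_eq_mul] at e1 e2
    have p1 : (D - M) / L * M + δ / L * (D + δ) = M + δ := by
      field_simp
      rw [hLdef]; ring
    have p2 : δ / L * M + (D - M) / L * (D + δ) = D := by
      field_simp
      rw [hLdef]; ring
    rw [p1] at e1
    rw [p2] at e2
    have p3 : (D - M) / L * f M + δ / L * f (D + δ) + (δ / L * f M + (D - M) / L * f (D + δ))
        = ((D - M) / L + δ / L) * (f M + f (D + δ)) := by ring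
    rw [a3, one_mul] at p3
    linarith

/-! ### the functional on `ENNReal` -/

/-- `hq` on `ENNReal` (constant `1` above `1`) -/
noncomputable def Hq (q : ℝ) (y : ℝ≥0∞) : ℝ≥0∞ := ENNReal.ofReal (hq q (min y 1).toReal)

/-- the functional: `(y (1 + q log(1/y)))^s`, constant `1` above `1` -/
noncomputable def Gq (q s : ℝ) (y : ℝ≥0∞) : ℝ≥0∞ := Hq q y ^ s

lemma min_ne_top (y : ℝ≥0∞) : min y 1 ≠ ⊤ := ne_top_of_le_ne_top ENNReal.one_ne_top (min_le_right _ _)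

lemma min_toReal_le (y : ℝ≥0∞) : (min y 1).toReal ≤ 1 := by
  have := ENNReal.toReal_mono ENNReal.one_ne_top (min_le_right y 1)
  simpa using this

lemma Hq_eq {q : ℝ} {y : ℝ≥0∞} (hy : y ≠ ⊤) : Hq q y = ENNReal.ofReal (hm q y.toReal) := by
  unfold Hq hm
  congr 2
  rw [ENNReal.toReal_min hy ENNReal.one_ne_top, ENNReal.toReal_one]

lemma Hq_min (q : ℝ) (y : ℝ≥0∞) : Hq q (min y 1) = Hq q y := by
  unfold Hq
  rw [min_assoc, min_self]

lemma Gq_min (q s : ℝ) (y : ℝ≥0∞) : Gq q s (min y 1) = Gq q s y := by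
  unfold Gq
  rw [Hq_min]

lemma Gq_eq {q s : ℝ} (hq0 : 0 ≤ q) (hs : 0 ≤ s) {y : ℝ≥0∞} (hy : y ≠ ⊤) :
    Gq q s y = ENNReal.ofReal (gm q s y.toReal) := by
  unfold Gq gm
  rw [Hq_eq hy, ENNReal.ofReal_rpow_of_nonneg (hm_nonneg hq0 ENNReal.toReal_nonneg) hs]

lemma Hq_le_one {q : ℝ} (hq0 : 0 ≤ q) (hq1 : q ≤ 1) (y : ℝ≥0∞) : Hq q y ≤ 1 := by
  unfold Hq
  exact ENNReal.ofReal_le_one.mpr (hq_le_one hq0 hq1 ENNReal.toReal_nonneg (min_toReal_le y))

lemma Gq_le_one {q s : ℝ} (hq0 : 0 ≤ q) (hq1 : q ≤ 1) (hs : 0 ≤ s) (y : ℝ≥0∞) : Gq q s y ≤ 1 :=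
  ENNReal.rpow_le_one (Hq_le_one hq0 hq1 y) hs

lemma Gq_ne_top {q s : ℝ} (hq0 : 0 ≤ q) (hq1 : q ≤ 1) (hs : 0 ≤ s) (y : ℝ≥0∞) : Gq q s y ≠ ⊤ :=
  ne_top_of_le_ne_top ENNReal.one_ne_top (Gq_le_one hq0 hq1 hs y)

lemma Hq_zero (q : ℝ) : Hq q 0 = 0 := by
  unfold Hq
  simp [hq_zero]

lemma Gq_zero {q s : ℝ} (hs : 0 < s) : Gq q s 0 = 0 := by
  unfold Gq
  rw [Hq_zero, ENNReal.zero_rpow_of_pos hs]

lemma Hq_mono {q : ℝ} (hq0 : 0 ≤ q) (hq1 : q ≤ 1) : Monotone (Hq q) := by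
  intro x y h
  unfold Hq
  apply ENNReal.ofReal_le_ofReal
  apply hq_mono hq0 hq1 ENNReal.toReal_nonneg _ (min_toReal_le y)
  exact ENNReal.toReal_mono (min_ne_top y) (min_le_min_right _ h)

lemma Gq_mono {q s : ℝ} (hq0 : 0 ≤ q) (hq1 : q ≤ 1) (hs : 0 ≤ s) : Monotone (Gq q s) :=
  fun _ _ h => ENNReal.rpow_le_rpow (Hq_mono hq0 hq1 h) hs

lemma measurable_Hq (q : ℝ) : Measurable (Hq q) := by
  unfold Hq
  exact ((continuous_hq q).measurable.comp
    (measurable_id.min measurable_const).ennreal_toReal).ennreal_ofReal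

lemma measurable_Gq (q s : ℝ) : Measurable (Gq q s) := (measurable_Hq q).pow_const s

/-- larger `q`, larger functional -/
lemma Gq_mono_q {q q' s : ℝ} (h : q ≤ q') (hs : 0 ≤ s) (y : ℝ≥0∞) : Gq q s y ≤ Gq q' s y := by
  apply ENNReal.rpow_le_rpow _ hs
  unfold Hq
  exact ENNReal.ofReal_le_ofReal (hq_mono_q h ENNReal.toReal_nonneg (min_toReal_le y))

/-- `y^s ≤ G y` for `y ≤ 1` -/
lemma rpow_le_Gq {q s : ℝ} (hq0 : 0 ≤ q) (hs : 0 ≤ s) {y : ℝ≥0∞} (hy : y ≤ 1) :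
    y ^ s ≤ Gq q s y := by
  apply ENNReal.rpow_le_rpow _ hs
  unfold Hq
  rw [min_eq_left hy]
  have hyt : y ≠ ⊤ := ne_top_of_le_ne_top ENNReal.one_ne_top hy
  have hy1 : y.toReal ≤ 1 := by
    have := ENNReal.toReal_mono ENNReal.one_ne_top hy
    simpa using this
  calc y = ENNReal.ofReal y.toReal := (ENNReal.ofReal_toReal hyt).symm
    _ ≤ _ := ENNReal.ofReal_le_ofReal (le_hq hq0 ENNReal.toReal_nonneg hy1)

/-- `G_(l q) ≤ l^s G_q` for `l ≥ 1` -/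
lemma Gq_scale {q l s : ℝ} (hl : 1 ≤ l) (hs : 0 ≤ s) (y : ℝ≥0∞) :
    Gq (l * q) s y ≤ ENNReal.ofReal (l ^ s) * Gq q s y := by
  unfold Gq
  rw [← ENNReal.ofReal_rpow_of_nonneg (by linarith) hs, ← ENNReal.mul_rpow_of_nonneg _ _ hs]
  apply ENNReal.rpow_le_rpow _ hs
  unfold Hq
  rw [← ENNReal.ofReal_mul (by linarith)]
  exact ENNReal.ofReal_le_ofReal (hq_scale hl ENNReal.toReal_nonneg)

/-- **four points** for the functional -/
lemma four_Gq {q s : ℝ} (hq0 : 0 ≤ q) (hq1 : q ≤ 1) (h0 : 0 ≤ s) (h1 : s ≤ 1) {D M δ : ℝ≥0∞}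
    (hMD : M ≤ D) (hD : D ≠ ⊤) (hδ : δ ≠ ⊤) :
    Gq q s (D + δ) + Gq q s M ≤ Gq q s D + Gq q s (M + δ) := by
  have hM : M ≠ ⊤ := ne_top_of_le_ne_top hD hMD
  rw [Gq_eq hq0 h0 (ENNReal.add_ne_top.mpr ⟨hD, hδ⟩), Gq_eq hq0 h0 hM, Gq_eq hq0 h0 hD,
    Gq_eq hq0 h0 (ENNReal.add_ne_top.mpr ⟨hM, hδ⟩),
    ← ENNReal.ofReal_add (gm_nonneg hq0 ENNReal.toReal_nonneg) (gm_nonneg hq0 ENNReal.toReal_nonneg),
    ← ENNReal.ofReal_add (gm_nonneg hq0 ENNReal.toReal_nonneg) (gm_nonneg hq0 ENNReal.toReal_nonneg)]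
  apply ENNReal.ofReal_le_ofReal
  rw [ENNReal.toReal_add hD hδ, ENNReal.toReal_add hM hδ]
  exact four_of_concave (concaveOn_gm hq0 hq1 h0 h1) ENNReal.toReal_nonneg
    (ENNReal.toReal_mono hD hMD) ENNReal.toReal_nonneg

/-- increments of the functional are subadditive -/
lemma sum_Gq {ι : Type*} (J : Finset ι) {q s : ℝ} (hq0 : 0 ≤ q) (hq1 : q ≤ 1) (h0 : 0 ≤ s)
    (h1 : s ≤ 1) {D : ℝ≥0∞} (hD : D ≠ ⊤) {δ : ι → ℝ≥0∞} (hδ : ∀ i ∈ J, δ i ≠ ⊤) :
    Gq q s (D + ∑ i ∈ J, δ i) + (J.card : ℝ≥0∞) * Gq q s D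
      ≤ Gq q s D + ∑ i ∈ J, Gq q s (D + δ i) := by
  classical
  induction J using Finset.induction_on with
  | empty => simp
  | insert i J hi ih =>
    have ih' := ih (fun j hj => hδ j (Finset.mem_insert_of_mem hj))
    rw [Finset.sum_insert hi, Finset.sum_insert hi, Finset.card_insert_of_notMem hi]
    have hS : ∑ j ∈ J, δ j ≠ ⊤ := ENNReal.sum_ne_top.mpr
      (fun j hj => hδ j (Finset.mem_insert_of_mem hj))
    have h2 := four_Gq hq0 hq1 h0 h1 (D := D + ∑ j ∈ J, δ j) (M := D) (δ := δ i) le_self_add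
      (ENNReal.add_ne_top.mpr ⟨hD, hS⟩) (hδ i (Finset.mem_insert_self i J))
    have e1 : D + (δ i + ∑ j ∈ J, δ j) = D + ∑ j ∈ J, δ j + δ i := by ring
    rw [e1]
    push_cast
    calc Gq q s (D + ∑ j ∈ J, δ j + δ i) + ((J.card : ℝ≥0∞) + 1) * Gq q s D
        = (Gq q s (D + ∑ j ∈ J, δ j + δ i) + Gq q s D) + (J.card : ℝ≥0∞) * Gq q s D := by ring
      _ ≤ (Gq q s (D + ∑ j ∈ J, δ j) + Gq q s (D + δ i)) + (J.card : ℝ≥0∞) * Gq q s D :=
        add_le_add_left h2 _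
      _ = (Gq q s (D + ∑ j ∈ J, δ j) + (J.card : ℝ≥0∞) * Gq q s D) + Gq q s (D + δ i) := by ring
      _ ≤ (Gq q s D + ∑ j ∈ J, Gq q s (D + δ j)) + Gq q s (D + δ i) := add_le_add_left ih' _
      _ = Gq q s D + (Gq q s (D + δ i) + ∑ j ∈ J, Gq q s (D + δ j)) := by ring

/-- `G (a + b) ≤ G a + G b` -/
lemma Gq_add_le {q s : ℝ} (hq0 : 0 ≤ q) (hq1 : q ≤ 1) (h0 : 0 < s) (h1 : s ≤ 1) (a b : ℝ≥0∞) :
    Gq q s (a + b) ≤ Gq q s a + Gq q s b := by
  by_cases ha : a = ⊤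
  · rw [ha, top_add]
    exact le_self_add
  by_cases hb : b = ⊤
  · rw [hb, add_top]
    exact le_add_self
  have h := four_Gq hq0 hq1 h0.le h1 (D := a) (M := 0) (δ := b) zero_le ha hb
  rwa [Gq_zero h0, add_zero, zero_add] at h

/-- chords: for `f` concave on `[0,oo)` with `f 0 = 0`: `x f D ≤ D f x` for `x ≤ D` -/
lemma chord_of_concave {f : ℝ → ℝ} (hf : ConcaveOn ℝ (Ici 0) f) (hf0 : f 0 = 0) {x D : ℝ}
    (hx : 0 ≤ x) (hxD : x ≤ D) : x * f D ≤ D * f x := by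
  rcases (hx.trans hxD).eq_or_lt with h | h
  · have : x = 0 := by linarith
    rw [this, ← h]
  · have h1 := hf.2 (mem_Ici.mpr h.le) (mem_Ici.mpr (le_refl (0 : ℝ)))
      (div_nonneg hx h.le) (show 0 ≤ 1 - x / D by
        rw [sub_nonneg, div_le_one h]; exact hxD) (by ring)
    simp only [smul_eq_mul, mul_zero, add_zero, hf0] at h1
    rw [div_mul_cancel₀ _ h.ne'] at h1
    have h2 : D * (x / D * f D) = x * f D := by field_simp
    have h3 := mul_le_mul_of_nonneg_left h1 h.le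
    linarith

/-- chord inequality for the functional, product form -/
lemma chord_Gq {q s : ℝ} (hq0 : 0 ≤ q) (hq1 : q ≤ 1) (h0 : 0 < s) (h1 : s ≤ 1) {x D : ℝ≥0∞}
    (hxD : x ≤ D) (hD : D ≠ ⊤) : x * Gq q s D ≤ D * Gq q s x := by
  have hx : x ≠ ⊤ := ne_top_of_le_ne_top hD hxD
  have e1 : x = ENNReal.ofReal x.toReal := (ENNReal.ofReal_toReal hx).symm
  have e2 : D = ENNReal.ofReal D.toReal := (ENNReal.ofReal_toReal hD).symm
  have hz : gm q s 0 = 0 := by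
    unfold gm
    rw [hm_zero, Real.zero_rpow h0.ne']
  have h2 := chord_of_concave (concaveOn_gm hq0 hq1 h0.le h1) hz
    (x := x.toReal) (D := D.toReal) ENNReal.toReal_nonneg (ENNReal.toReal_mono hD hxD)
  calc x * Gq q s D = ENNReal.ofReal x.toReal * ENNReal.ofReal (gm q s D.toReal) := by
        rw [← Gq_eq hq0 h0.le hD, ← e1]
    _ = ENNReal.ofReal (x.toReal * gm q s D.toReal) := (ENNReal.ofReal_mul ENNReal.toReal_nonneg).symm
    _ ≤ ENNReal.ofReal (D.toReal * gm q s x.toReal) := ENNReal.ofReal_le_ofReal h2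
    _ = ENNReal.ofReal D.toReal * ENNReal.ofReal (gm q s x.toReal) :=
        ENNReal.ofReal_mul ENNReal.toReal_nonneg
    _ = D * Gq q s x := by rw [← Gq_eq hq0 h0.le hx, ← e2]

/-- **fibre direction, functional form**: if `δ ≤ c Sum_m min(D, p_m)` then
`G (D + δ) ≤ G D + c Sum_m G (min(D, p_m))`. -/
lemma Gq_add_layer {q s : ℝ} (hq0 : 0 ≤ q) (hq1 : q ≤ 1) (h0 : 0 < s) (h1 : s ≤ 1)
    {D δ c : ℝ≥0∞} (hD : D ≠ ⊤) (hδt : δ ≠ ⊤) {p : ℕ → ℝ≥0∞}
    (hδ : δ ≤ c * ∑' m : ℕ, min D (p m)) :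
    Gq q s (D + δ) ≤ Gq q s D + c * ∑' m : ℕ, Gq q s (min D (p m)) := by
  rcases eq_or_ne D 0 with hD0 | hD0
  · have : δ = 0 := by
      have h2 : ∀ m, min D (p m) = 0 := fun m => by rw [hD0]; exact min_eq_left zero_le
      simp only [h2, tsum_zero, mul_zero, nonpos_iff_eq_zero] at hδ
      exact hδ
    rw [this, add_zero]
    exact le_self_add
  · -- `G (D + δ) ≤ G D + δ (G D / D)`
    have h2 : Gq q s (D + δ) ≤ Gq q s D + δ * (Gq q s D / D) := by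
      have h3 := chord_Gq hq0 hq1 h0 h1 (x := D) (D := D + δ) le_self_add
        (ENNReal.add_ne_top.mpr ⟨hD, hδt⟩)
      have h4 : Gq q s (D + δ) = (D * Gq q s (D + δ)) / D := by
        rw [mul_comm, ENNReal.mul_div_cancel_right hD0 hD]
      rw [h4]
      refine (ENNReal.div_le_div_right h3 D).trans (le_of_eq ?_)
      rw [add_mul, ENNReal.add_div, mul_comm D, ENNReal.mul_div_cancel_right hD0 hD, mul_div_assoc]
    refine h2.trans (add_le_add_right ?_ _)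
    refine (mul_le_mul_left hδ _).trans ?_
    rw [mul_assoc, ← ENNReal.tsum_mul_right]
    apply mul_le_mul_right
    apply ENNReal.tsum_le_tsum
    intro m
    rw [← mul_div_assoc]
    apply ENNReal.div_le_of_le_mul
    rw [mul_comm (Gq q s (min D (p m))) D]
    exact chord_Gq hq0 hq1 h0 h1 (min_le_left _ _) hD

end Vale.Agent.P262.H998
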