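import Vale.Agent.P262.H998.Gc1
import Vale.Agent.P262.H837.ThrF
import Vale.Agent.P262.H493.PerB

/-!
# P262, the scalar functional of the throughput with classes, part 2

Jensen and Hoelder on the fibres, the ratio bound `hq q y ≤ 2 (y/D)^(1/2) hq q D`, the layer sum
`Sum_m G (min(D, p_m))`.
-/

set_option linter.all false

open MeasureTheory ProbabilityTheory Set
open scoped ENNReal RealInnerProductSpace Pointwise

namespace Vale.Agent.P262.H998

open Vale.Agent.P262.H395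

variable {E : Type*} [NormedAddCommGroup E] [InnerProductSpace ℝ E] [FiniteDimensional ℝ E]
  [MeasurableSpace E] [BorelSpace E]

/-- Jensen on the fibres -/
theorem fib_Hq_le {q : ℝ} (hq0 : 0 ≤ q) (hq1 : q ≤ 1) {W : Submodule ℝ E} {N : E → ℝ≥0∞}
    (hN : Measurable N) (x : E) : fib W (fun y => Hq q (N y)) x ≤ Hq q (fib W N x) := by
  have hm : Measurable fun z => (min (N (mix W x z)) 1).toReal :=
    ((hN.comp (measurable_mix_right W x)).min measurable_const).ennreal_toReal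
  have h0 : ∀ z, 0 ≤ (min (N (mix W x z)) 1).toReal := fun z => ENNReal.toReal_nonneg
  have h1 : ∀ z, (min (N (mix W x z)) 1).toReal ≤ 1 := fun z => min_toReal_le _
  have hi : Integrable (fun z => (min (N (mix W x z)) 1).toReal) (stdGaussian E) :=
    Integrable.of_bound hm.aestronglyMeasurable 1 (Filter.Eventually.of_forall fun z => by
      rw [Real.norm_eq_abs, abs_of_nonneg (h0 z)]; exact h1 z)
  have hgm : Measurable fun z => hq q (min (N (mix W x z)) 1).toReal :=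
    (continuous_hq q).measurable.comp hm
  have hg0 : ∀ z, 0 ≤ hq q (min (N (mix W x z)) 1).toReal := fun z => hq_nonneg hq0 (h0 z) (h1 z)
  have hgi : Integrable (fun z => hq q (min (N (mix W x z)) 1).toReal) (stdGaussian E) :=
    Integrable.of_bound hgm.aestronglyMeasurable 1 (Filter.Eventually.of_forall fun z => by
      rw [Real.norm_eq_abs, abs_of_nonneg (hg0 z)]; exact hq_le_one hq0 hq1 (h0 z) (h1 z))
  have hJ := (concaveOn_hq hq0).le_map_integral (continuous_hq q).continuousOn isClosed_Ici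
    (Filter.Eventually.of_forall fun z => mem_Ici.mpr (h0 z)) hi hgi
  have e1 : fib W (fun y => Hq q (N y)) x
      = ENNReal.ofReal (∫ z, hq q (min (N (mix W x z)) 1).toReal ∂(stdGaussian E)) := by
    rw [ofReal_integral_eq_lintegral_ofReal hgi (Filter.Eventually.of_forall hg0)]
    rfl
  have e2 : ∫ z, (min (N (mix W x z)) 1).toReal ∂(stdGaussian E)
      = (fib W (fun y => min (N y) 1) x).toReal := by
    have hmm : Measurable fun z => min (N (mix W x z)) 1 :=
      (hN.comp (measurable_mix_right W x)).min measurable_const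
    rw [integral_toReal hmm.aemeasurable
      (Filter.Eventually.of_forall fun z => lt_of_le_of_lt (min_le_right _ _) ENNReal.one_lt_top)]
    rfl
  rw [e1]
  rw [e2] at hJ
  unfold Hq
  apply ENNReal.ofReal_le_ofReal
  refine hJ.trans ?_
  apply hq_mono hq0 hq1 ENNReal.toReal_nonneg _ (min_toReal_le _)
  apply ENNReal.toReal_mono (min_ne_top _)
  apply le_min
  · exact fib_mono (fun y => min_le_left _ _) x
  · exact fib_le_one (fun y => min_le_right _ _) x

/-- **Hoelder and Jensen on the fibres** -/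
theorem fib_Gq_holder {q : ℝ} (hq0 : 0 ≤ q) (hq1 : q ≤ 1) {W : Submodule ℝ E} {th s : ℝ}
    (hth : 0 < th) (hs : 0 < s) (hsum : th + s = 1) {X N : E → ℝ≥0∞} (hX : Measurable X)
    (hN : Measurable N) (x : E) :
    fib W (fun y => X y * Gq q s (N y)) x
      ≤ fib W (fun y => X y ^ (1 / th)) x ^ th * Gq q s (fib W N x) := by
  have h := H837.fib_holder (W0 := W) hth hs hsum hX ((measurable_Hq q).comp hN) x
  refine h.trans ?_
  apply mul_le_mul_right
  exact ENNReal.rpow_le_rpow (fib_Hq_le hq0 hq1 hN x) hs.le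

/-- the form with the weight `X^th` -/
theorem fib_Gq_holder' {q : ℝ} (hq0 : 0 ≤ q) (hq1 : q ≤ 1) {W : Submodule ℝ E} {th s : ℝ}
    (hth : 0 < th) (hs : 0 < s) (hsum : th + s = 1) {X N : E → ℝ≥0∞} (hX : Measurable X)
    (hN : Measurable N) (x : E) :
    fib W (fun y => X y ^ th * Gq q s (N y)) x ≤ fib W X x ^ th * Gq q s (fib W N x) := by
  have h := fib_Gq_holder hq0 hq1 (W := W) hth hs hsum (X := fun y => X y ^ th)
    (hX.pow_const th) hN x
  have e : ∀ y, (X y ^ th) ^ (1 / th) = X y := fun y => by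
    rw [← ENNReal.rpow_mul, mul_one_div_cancel hth.ne', ENNReal.rpow_one]
  simp only [e] at h
  exact h

/-- only Jensen: `E G(N) ≤ G(E N)` -/
theorem fib_Gq_le {q s : ℝ} (hq0 : 0 ≤ q) (hq1 : q ≤ 1) (hs : 0 < s) (hs1 : s < 1)
    {W : Submodule ℝ E} {N : E → ℝ≥0∞} (hN : Measurable N) (x : E) :
    fib W (fun y => Gq q s (N y)) x ≤ Gq q s (fib W N x) := by
  have h := fib_Gq_holder hq0 hq1 (W := W) (th := 1 - s) (s := s) (by linarith) hs (by ring)
    (X := fun _ => 1) measurable_const hN x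
  simp only [one_mul, ENNReal.one_rpow, fib_const] at h
  exact h

/-! ### ratios -/

/-- `hq q (t D) ≤ 2 sqrt t hq q D` -/
lemma hq_ratio {q D t : ℝ} (hq0 : 0 ≤ q) (hq1 : q ≤ 1) (hD : 0 ≤ D) (hD1 : D ≤ 1) (ht : 0 ≤ t)
    (ht1 : t ≤ 1) : hq q (t * D) ≤ 2 * Real.sqrt t * hq q D := by
  rcases ht.eq_or_lt with h | h
  · rw [← h]; simp [hq_zero]
  rcases hD.eq_or_lt with h' | h'
  · rw [← h']; simp [hq_zero]
  have hlog : Real.log (t * D) = Real.log t + Real.log D := Real.log_mul h.ne' h'.ne'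
  have hr : 0 < Real.sqrt t := Real.sqrt_pos.mpr h
  have hrr : Real.sqrt t * Real.sqrt t = t := Real.mul_self_sqrt ht
  have hlt : Real.log t = 2 * Real.log (Real.sqrt t) := by
    conv_lhs => rw [← hrr]
    rw [Real.log_mul hr.ne' hr.ne']; ring
  have h1 : 1 - (Real.sqrt t)⁻¹ ≤ Real.log (Real.sqrt t) := Real.one_sub_inv_le_log_of_pos hr
  -- `t (1 - log t) ≤ 2 sqrt t`
  have h2 : t * (1 - Real.log t) ≤ 2 * Real.sqrt t := by
    rw [hlt]
    have h3 : t * (1 - (Real.sqrt t)⁻¹) ≤ t * Real.log (Real.sqrt t) :=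
      mul_le_mul_of_nonneg_left h1 ht
    have h4 : t * (Real.sqrt t)⁻¹ = Real.sqrt t := by
      nth_rewrite 1 [← hrr]
      rw [mul_assoc, mul_inv_cancel₀ hr.ne', mul_one]
    nlinarith
  have hlD : 0 ≤ -Real.log D := by
    have := Real.log_nonpos hD hD1
    linarith
  have hltn : 0 ≤ -Real.log t := by
    have := Real.log_nonpos ht ht1
    linarith
  have e1 : hq q (t * D) = D * (t * (1 - q * Real.log D - q * Real.log t)) := by
    unfold hq Real.negMulLog
    rw [hlog]; ring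
  have e2 : hq q D = D * (1 - q * Real.log D) := by
    unfold hq Real.negMulLog
    ring
  have h5 : 1 - q * Real.log D - q * Real.log t ≤ (1 - q * Real.log D) * (1 - Real.log t) := by
    nlinarith [mul_nonneg hq0 hlD, mul_nonneg (mul_nonneg hq0 hlD) hltn]
  have h6 : 0 ≤ 1 - q * Real.log D := by nlinarith [mul_nonneg hq0 hlD]
  rw [e1, e2]
  calc D * (t * (1 - q * Real.log D - q * Real.log t))
      ≤ D * (t * ((1 - q * Real.log D) * (1 - Real.log t))) := by gcongr
    _ = D * ((1 - q * Real.log D) * (t * (1 - Real.log t))) := by ring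
    _ ≤ D * ((1 - q * Real.log D) * (2 * Real.sqrt t)) := by gcongr
    _ = 2 * Real.sqrt t * (D * (1 - q * Real.log D)) := by ring

/-- `G (t D) ≤ 2^s t^(s/2) G D` -/
lemma Gq_ratio {q s : ℝ} (hq0 : 0 ≤ q) (hq1 : q ≤ 1) (hs : 0 ≤ s) {D : ℝ≥0∞} (hD1 : D ≤ 1)
    {t : ℝ} (ht : 0 ≤ t) (ht1 : t ≤ 1) :
    Gq q s (ENNReal.ofReal t * D) ≤ ENNReal.ofReal ((2 * Real.sqrt t) ^ s) * Gq q s D := by
  have hDt : D ≠ ⊤ := ne_top_of_le_ne_top ENNReal.one_ne_top hD1
  have hD' : D.toReal ≤ 1 := by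
    have := ENNReal.toReal_mono ENNReal.one_ne_top hD1
    simpa using this
  have h2 : ENNReal.ofReal t * D ≤ 1 := by
    calc ENNReal.ofReal t * D ≤ 1 * 1 := mul_le_mul' (ENNReal.ofReal_le_one.mpr ht1) hD1
      _ = 1 := one_mul 1
  unfold Gq
  rw [← ENNReal.ofReal_rpow_of_nonneg (by positivity) hs, ← ENNReal.mul_rpow_of_nonneg _ _ hs]
  apply ENNReal.rpow_le_rpow _ hs
  unfold Hq
  rw [min_eq_left h2, min_eq_left hD1, ENNReal.toReal_mul, ENNReal.toReal_ofReal ht,
    ← ENNReal.ofReal_mul (by positivity)]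
  exact ENNReal.ofReal_le_ofReal (hq_ratio hq0 hq1 ENNReal.toReal_nonneg hD' ht ht1)

/-- halving -/
lemma hq_half {q D : ℝ} (hq0 : 0 ≤ q) (hq1 : q ≤ 1) (hD : 0 ≤ D) (hD1 : 2 * D ≤ 1) :
    hq q D ≤ 17 / 20 * hq q (2 * D) := by
  rcases hD.eq_or_lt with h | h
  · rw [← h]; simp [hq_zero]
  have e1 : hq q (2 * D) = 2 * D * (1 - q * Real.log D - q * Real.log 2) := by
    unfold hq Real.negMulLog
    rw [Real.log_mul (by norm_num) h.ne']; ring
  have e2 : hq q D = D * (1 - q * Real.log D) := by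
    unfold hq Real.negMulLog
    ring
  rw [e1, e2]
  have hl2 : Real.log 2 < 0.6931471808 := Real.log_two_lt_d9
  have hl2' : 0.6931471803 < Real.log 2 := Real.log_two_gt_d9
  have hlD : Real.log D ≤ -Real.log 2 := by
    have h3 : Real.log D ≤ Real.log (1 / 2) := Real.log_le_log h (by linarith)
    have h4 : Real.log (1 / 2 : ℝ) = -Real.log 2 := by
      rw [one_div, Real.log_inv]
    linarith
  have h5 : q * Real.log D ≤ q * (-Real.log 2) := mul_le_mul_of_nonneg_left hlD hq0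
  have h6 : 1 - q * Real.log D ≤ 17 / 20 * (2 * (1 - q * Real.log D - q * Real.log 2)) := by
    nlinarith
  calc D * (1 - q * Real.log D)
      ≤ D * (17 / 20 * (2 * (1 - q * Real.log D - q * Real.log 2))) := by gcongr
    _ = _ := by ring

/-- halving: `G D ≤ (17/20)^s G P` for `2 D ≤ P`, `2 D ≤ 1` -/
lemma Gq_half {q s : ℝ} (hq0 : 0 ≤ q) (hq1 : q ≤ 1) (hs : 0 ≤ s) {D P : ℝ≥0∞} (hD : 2 * D ≤ P)
    (hD1 : 2 * D ≤ 1) : Gq q s D ≤ ENNReal.ofReal ((17 / 20) ^ s) * Gq q s P := by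
  have hDt : D ≠ ⊤ := by
    intro h
    rw [h, ENNReal.mul_top (by norm_num)] at hD1
    exact absurd hD1 (by simp)
  have h2r : (2 * D).toReal = 2 * D.toReal := by rw [ENNReal.toReal_mul]; rfl
  have hD' : 2 * D.toReal ≤ 1 := by
    have := ENNReal.toReal_mono ENNReal.one_ne_top hD1
    rw [h2r] at this
    simpa using this
  have hDle : D ≤ 1 := le_trans (by
    calc D = 1 * D := (one_mul D).symm
      _ ≤ 2 * D := mul_le_mul_left (by norm_num) _) hD1
  have h3 : Gq q s D ≤ ENNReal.ofReal ((17 / 20) ^ s) * Gq q s (2 * D) := by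
    unfold Gq
    rw [← ENNReal.ofReal_rpow_of_nonneg (by positivity) hs, ← ENNReal.mul_rpow_of_nonneg _ _ hs]
    apply ENNReal.rpow_le_rpow _ hs
    unfold Hq
    rw [min_eq_left hDle, min_eq_left hD1, h2r, ← ENNReal.ofReal_mul (by positivity)]
    exact ENNReal.ofReal_le_ofReal (hq_half hq0 hq1 ENNReal.toReal_nonneg hD')
  exact h3.trans (mul_le_mul_right (Gq_mono hq0 hq1 hs hD) _)

/-! ### the layer sum -/

/-- `Sum_m G (min(D, p_m))` -/
noncomputable def PsiG (q s : ℝ) (D : ℝ≥0∞) : ℝ≥0∞ := ∑' m : ℕ, Gq q s (min D (H837.pg m))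

lemma PsiG_mono {q s : ℝ} (hq0 : 0 ≤ q) (hq1 : q ≤ 1) (hs : 0 ≤ s) : Monotone (PsiG q s) :=
  fun _ _ h => ENNReal.tsum_le_tsum fun m => Gq_mono hq0 hq1 hs (min_le_min_right _ h)

lemma tsum_split (f : ℕ → ℝ≥0∞) (m : ℕ) :
    ∑' n : ℕ, f n = (∑ n ∈ Finset.range m, f n) + ∑' n : ℕ, f (m + n) := by
  have h := ENNReal.summable.sum_add_tsum_nat_add' (f := f) (k := m) |>.symm
  simpa [add_comm] using h

/-- the constant of the tail: `2^s / (1 - (2/3)^(s/2))` -/
noncomputable def cPs (s : ℝ) : ℝ := 2 ^ s / (1 - (2 / 3) ^ (s / 2))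

lemma cPs_pos {s : ℝ} (hs : 0 < s) : 0 < cPs s := by
  have h : (2 / 3 : ℝ) ^ (s / 2) < 1 := Real.rpow_lt_one (by norm_num) (by norm_num) (by linarith)
  unfold cPs
  apply div_pos (by positivity)
  linarith

/-- **the layer sum** -/
theorem PsiG_le {q s : ℝ} (hq0 : 0 ≤ q) (hq1 : q ≤ 1) (hs : 0 < s) {D : ℝ≥0∞} (hD1 : D ≤ 1) {m : ℕ}
    (hm : H837.pg m ≤ D) : PsiG q s D ≤ ((m : ℝ≥0∞) + ENNReal.ofReal (cPs s)) * Gq q s D := by
  unfold PsiG
  rw [tsum_split _ m, add_mul]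
  apply add_le_add
  · calc ∑ n ∈ Finset.range m, Gq q s (min D (H837.pg n))
        ≤ ∑ n ∈ Finset.range m, Gq q s D :=
          Finset.sum_le_sum fun n _ => Gq_mono hq0 hq1 hs.le (min_le_left _ _)
      _ = (m : ℝ≥0∞) * Gq q s D := by simp
  · set r : ℝ := (2 / 3 : ℝ) ^ (s / 2) with hr
    have hr0 : 0 ≤ r := by positivity
    have hr1 : r < 1 := Real.rpow_lt_one (by norm_num) (by norm_num) (by linarith)
    have h1 : ∀ k : ℕ, Gq q s (min D (H837.pg (m + k)))
        ≤ ENNReal.ofReal r ^ k * (ENNReal.ofReal (2 ^ s) * Gq q s D) := by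
      intro k
      have h2 : min D (H837.pg (m + k)) ≤ ENNReal.ofReal ((2 / 3) ^ k) * D := by
        refine (min_le_right _ _).trans ((H837.pg_le_geom m k).trans ?_)
        rw [← ENNReal.ofReal_pow (by norm_num)]
        exact mul_le_mul_right hm _
      have h3 : (0 : ℝ) ≤ (2 / 3) ^ k := by positivity
      have h4 : ((2 / 3 : ℝ)) ^ k ≤ 1 := pow_le_one₀ (by norm_num) (by norm_num)
      refine (Gq_mono hq0 hq1 hs.le h2).trans ((Gq_ratio hq0 hq1 hs.le hD1 h3 h4).trans ?_)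
      rw [← mul_assoc]
      apply mul_le_mul_left
      rw [← ENNReal.ofReal_pow hr0, ← ENNReal.ofReal_mul (by positivity)]
      apply le_of_eq
      congr 1
      rw [Real.mul_rpow (by norm_num) (Real.sqrt_nonneg _), mul_comm, Real.sqrt_eq_rpow,
        ← Real.rpow_mul h3, hr, ← Real.rpow_natCast, ← Real.rpow_natCast, ← Real.rpow_mul (by norm_num),
        ← Real.rpow_mul (by norm_num)]
      congr 2
      ring
    calc ∑' k : ℕ, Gq q s (min D (H837.pg (m + k)))
        ≤ ∑' k : ℕ, ENNReal.ofReal r ^ k * (ENNReal.ofReal (2 ^ s) * Gq q s D) :=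
          ENNReal.tsum_le_tsum h1
      _ = (1 - ENNReal.ofReal r)⁻¹ * (ENNReal.ofReal (2 ^ s) * Gq q s D) := by
          rw [ENNReal.tsum_mul_right, ENNReal.tsum_geometric]
      _ = ENNReal.ofReal (cPs s) * Gq q s D := by
          rw [← mul_assoc]
          congr 1
          rw [← ENNReal.ofReal_one, ← ENNReal.ofReal_sub _ hr0,
            ← ENNReal.ofReal_inv_of_pos (by linarith), ← ENNReal.ofReal_mul (by
              rw [inv_nonneg]; linarith)]
          congr 1
          unfold cPs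
          rw [← hr, div_eq_mul_inv, mul_comm]

/-- Gaussian tails -/
lemma pg_le_exp (m : ℕ) : H837.pg m ≤ ENNReal.ofReal (2 * Real.exp (-((m : ℝ) ^ 2 / 2))) := by
  rw [H837.pg_eq]
  have hm : (0 : ℝ) ≤ m := Nat.cast_nonneg m
  have h1 : gaussianReal 0 1 (Ioi (m : ℝ)) ≤ H493.ee m :=
    (measure_mono Ioi_subset_Ici_self).trans (PerW.gauss_tail_pos hm)
  have h2 : gaussianReal 0 1 (Iio (-(m : ℝ))) ≤ H493.ee m := by
    refine (measure_mono Iio_subset_Iic_self).trans ?_
    rw [← PerW.ee_neg]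
    exact PerW.gauss_tail_neg (by linarith)
  refine (add_le_add h1 h2).trans (le_of_eq ?_)
  unfold H493.ee
  rw [← ENNReal.ofReal_add (Real.exp_pos _).le (Real.exp_pos _).le]
  congr 1
  ring_nf

/-- a level with `p_m ≤ D` -/
lemma exists_pg_le {D : ℝ} (hD : 0 < D) (hD1 : D ≤ 1) :
    ∃ m : ℕ, H837.pg m ≤ ENNReal.ofReal D ∧ (m : ℝ) ≤ 3 * Real.sqrt (1 - Real.log D) := by
  have hl : Real.log D ≤ 0 := Real.log_nonpos hD.le hD1
  set y : ℝ := 1 - Real.log D with hy
  have hy1 : 1 ≤ y := by linarith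
  refine ⟨⌈Real.sqrt (2 * y)⌉₊, ?_, ?_⟩
  · refine (pg_le_exp _).trans (ENNReal.ofReal_le_ofReal ?_)
    have h1 : Real.sqrt (2 * y) ≤ (⌈Real.sqrt (2 * y)⌉₊ : ℝ) := Nat.le_ceil _
    have h2 : 2 * y ≤ (⌈Real.sqrt (2 * y)⌉₊ : ℝ) ^ 2 := by
      have h3 := Real.sq_sqrt (show 0 ≤ 2 * y by linarith)
      have h4 := Real.sqrt_nonneg (2 * y)
      nlinarith
    calc 2 * Real.exp (-((⌈Real.sqrt (2 * y)⌉₊ : ℝ) ^ 2 / 2)) ≤ 2 * Real.exp (-y) := by
          gcongr; linarith
      _ = 2 * (Real.exp (-1) * D) := by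
          rw [hy, show -(1 - Real.log D) = -1 + Real.log D by ring, Real.exp_add,
            Real.exp_log hD]
      _ ≤ D := by
          have h5 : Real.exp (-1) ≤ 1 / 2 := by
            rw [Real.exp_neg, inv_le_comm₀ (Real.exp_pos _) (by norm_num)]
            have := Real.add_one_le_exp (1 : ℝ)
            norm_num at this ⊢
            linarith
          nlinarith
  · have h1 := (Nat.ceil_lt_add_one (Real.sqrt_nonneg (2 * y))).le
    have h2 : Real.sqrt (2 * y) = Real.sqrt 2 * Real.sqrt y := Real.sqrt_mul (by norm_num) y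
    have h3 : Real.sqrt 2 ≤ 2 := by
      rw [Real.sqrt_le_left (by norm_num)]; norm_num
    have h4 : 1 ≤ Real.sqrt y := by
      rw [show (1 : ℝ) = Real.sqrt 1 by simp]
      exact Real.sqrt_le_sqrt hy1
    nlinarith [Real.sqrt_nonneg y]

/-- **the layer sum**, final form -/
theorem PsiG_le_sqrt {q s : ℝ} (hq0 : 0 ≤ q) (hq1 : q ≤ 1) (hs : 0 < s) {D : ℝ} (hD : 0 ≤ D)
    (hD1 : D ≤ 1) : PsiG q s (ENNReal.ofReal D)
      ≤ ENNReal.ofReal ((3 + cPs s) * Real.sqrt (1 - Real.log D)) * Gq q s (ENNReal.ofReal D) := by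
  rcases hD.eq_or_lt with h | h
  · rw [← h, ENNReal.ofReal_zero]
    unfold PsiG
    have h2 : ∀ m, Gq q s (min 0 (H837.pg m)) = 0 := fun m => by
      rw [min_eq_left zero_le, Gq_zero hs]
    simp only [h2, tsum_zero]
    exact zero_le
  obtain ⟨m, hm, hm2⟩ := exists_pg_le h hD1
  refine (PsiG_le hq0 hq1 hs (ENNReal.ofReal_le_one.mpr hD1) hm).trans ?_
  apply mul_le_mul_left
  have hl : Real.log D ≤ 0 := Real.log_nonpos hD hD1
  have h4 : 1 ≤ Real.sqrt (1 - Real.log D) := by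
    rw [show (1 : ℝ) = Real.sqrt 1 by simp]
    exact Real.sqrt_le_sqrt (by simp; linarith)
  have h5 : ((m : ℝ≥0∞)) = ENNReal.ofReal (m : ℝ) := (ENNReal.ofReal_natCast m).symm
  rw [h5, ← ENNReal.ofReal_add (Nat.cast_nonneg m) (cPs_pos hs).le]
  apply ENNReal.ofReal_le_ofReal
  have := cPs_pos hs
  nlinarith

end Vale.Agent.P262.H998
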