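import Vale.Agent.P262.H998.Gc2

/-!
# P262, the scalar functional of the throughput with classes, part 3

`Gc c s = Gq (4^(-c)) s`; comparison of the classes (G3) and the end comparison.
-/

set_option linter.all false

open MeasureTheory ProbabilityTheory Set
open scoped ENNReal RealInnerProductSpace Pointwise

namespace Vale.Agent.P262.H998

open Vale.Agent.P262.H395 Vale.Agent.P262.H941

/-- the parameter of class `c` -/
noncomputable def qc (c : ℕ) : ℝ := (1 / 4) ^ c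

lemma qc_pos (c : ℕ) : 0 < qc c := by unfold qc; positivity

lemma qc_nonneg (c : ℕ) : 0 ≤ qc c := (qc_pos c).le

lemma qc_le_one (c : ℕ) : qc c ≤ 1 := pow_le_one₀ (by norm_num) (by norm_num)

lemma qc_zero : qc 0 = 1 := by simp [qc]

lemma qc_anti {c c' : ℕ} (h : c ≤ c') : qc c' ≤ qc c :=
  pow_le_pow_of_le_one (by norm_num) (by norm_num) h

/-- the functional of class `c` -/
noncomputable def Gc (c : ℕ) (s : ℝ) (y : ℝ≥0∞) : ℝ≥0∞ := Gq (qc c) s y

lemma Gc_mono (c : ℕ) {s : ℝ} (hs : 0 ≤ s) : Monotone (Gc c s) :=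
  Gq_mono (qc_nonneg c) (qc_le_one c) hs

lemma Gc_le_one (c : ℕ) {s : ℝ} (hs : 0 ≤ s) (y : ℝ≥0∞) : Gc c s y ≤ 1 :=
  Gq_le_one (qc_nonneg c) (qc_le_one c) hs y

lemma Gc_anti {c c' : ℕ} (h : c ≤ c') {s : ℝ} (hs : 0 ≤ s) (y : ℝ≥0∞) : Gc c' s y ≤ Gc c s y :=
  Gq_mono_q (qc_anti h) hs y

/-- `G_c ≤ G_0` -/
lemma Gc_le_zero (c : ℕ) {s : ℝ} (hs : 0 ≤ s) (y : ℝ≥0∞) : Gc c s y ≤ Gc 0 s y :=
  Gc_anti (Nat.zero_le c) hs y

/-- `G_0 ≤ 4^(c s) G_c` -/
lemma Gc_zero_le (c : ℕ) {s : ℝ} (hs : 0 ≤ s) (y : ℝ≥0∞) :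
    Gc 0 s y ≤ ENNReal.ofReal (((4 : ℝ) ^ c) ^ s) * Gc c s y := by
  unfold Gc
  have e : qc 0 = 4 ^ c * qc c := by
    rw [qc_zero]
    unfold qc
    rw [← mul_pow]
    norm_num
  rw [e]
  exact Gq_scale (one_le_pow₀ (by norm_num)) hs y

/-- `G_(c - 1) ≤ 4^s G_c` -/
lemma Gc_pred_le (c : ℕ) {s : ℝ} (hs : 0 ≤ s) (y : ℝ≥0∞) :
    Gc (c - 1) s y ≤ ENNReal.ofReal ((4 : ℝ) ^ s) * Gc c s y := by
  unfold Gc
  refine (Gq_mono_q (q' := 4 * qc c) ?_ hs y).trans (Gq_scale (by norm_num) hs y)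
  unfold qc
  rcases Nat.eq_zero_or_pos c with h | h
  · rw [h]; norm_num
  · obtain ⟨k, rfl⟩ : ∃ k, c = k + 1 := ⟨c - 1, by omega⟩
    rw [Nat.add_sub_cancel, pow_succ]
    linarith

/-! ### sums over the classes -/

/-- geometric sums cut at the first index below `Y` -/
lemma geo_filter {f : ℕ → ℝ} {r Y : ℝ} (hf0 : ∀ n, 0 ≤ f n) (hr : 0 ≤ r) (hr1 : r < 1)
    (hf : ∀ n, f (n + 1) ≤ r * f n) (hY : 0 ≤ Y) (n : ℕ) :
    (∑ k ∈ Finset.range n, if f k ≤ Y then f k else 0) + min Y (f n) / (1 - r) ≤ Y / (1 - r) := by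
  have h1r : 0 < 1 - r := by linarith
  induction n with
  | zero =>
    rw [Finset.sum_range_zero, zero_add]
    exact div_le_div_of_nonneg_right (min_le_left _ _) h1r.le
  | succ n ih =>
    rw [Finset.sum_range_succ]
    by_cases h : f n ≤ Y
    · rw [if_pos h]
      rw [min_eq_right h] at ih
      have h2 : min Y (f (n + 1)) / (1 - r) ≤ r * f n / (1 - r) :=
        div_le_div_of_nonneg_right ((min_le_right _ _).trans (hf n)) h1r.le
      have h3 : f n + r * f n / (1 - r) = f n / (1 - r) := by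
        field_simp
        ring
      linarith
    · rw [if_neg h]
      rw [min_eq_left (not_le.mp h).le] at ih
      have h2 : min Y (f (n + 1)) / (1 - r) ≤ Y / (1 - r) :=
        div_le_div_of_nonneg_right (min_le_left _ _) h1r.le
      linarith

lemma log_five_ge : 1 ≤ Real.log 5 := by
  rw [Real.le_log_iff_exp_le (by norm_num)]
  have := Real.exp_one_lt_d9
  linarith

lemma log_two_thr (k : ℕ) : -Real.log (2 * thr k) = 4 ^ k - 1 + Real.log 5 := by
  unfold thr
  have e : 2 * (Real.exp (1 - 4 ^ k) / 10) = Real.exp (1 - 4 ^ k) / 5 := by ring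
  rw [e, Real.log_div (Real.exp_pos _).ne' (by norm_num), Real.log_exp]
  ring

/-- a label of large deficit in a high class: the logarithm dominates -/
lemma hq_case_a {y : ℝ} (hy : 0 ≤ y) (hy1 : y ≤ 1) {c j c' : ℕ} (hc : c' = c - 1 + j)
    (h : c' = 0 ∨ ∃ k, c' = k + 1 ∧ y ≤ 2 * thr k) :
    hq (qc c') y ≤ 20 * (1 / 4) ^ j * hq (qc c) y := by
  have hn := Real.negMulLog_nonneg hy hy1
  rcases h with h | ⟨k, hk, hyk⟩
  · have hj : j = 0 := by omega
    have hc1 : c ≤ 1 := by omega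
    rw [h, hj, pow_zero, mul_one, qc_zero]
    have h1 : hq 1 y ≤ 4 * hq (1 / 4) y := by
      have := hq_scale (q := 1 / 4) (l := 4) (y := y) (by norm_num) hy
      norm_num at this ⊢
      exact this
    have h2 : hq (1 / 4) y ≤ hq (qc c) y := by
      apply hq_mono_q _ hy hy1
      have := qc_anti hc1
      unfold qc at this ⊢
      rwa [pow_one] at this
    have h3 : 0 ≤ hq (1 / 4) y := hq_nonneg (by norm_num) hy hy1
    linarith
  · rcases hy.eq_or_lt with h0 | h0
    · rw [← h0]; simp [hq_zero]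
    have hlog : (4 : ℝ) ^ k ≤ -Real.log y := by
      have h1 : Real.log y ≤ Real.log (2 * thr k) := Real.log_le_log h0 hyk
      have h2 := log_two_thr k
      have h3 := log_five_ge
      linarith
    have h4k : 0 < (4 : ℝ) ^ k := by positivity
    -- `y ≤ 4 qc c' y l`
    have hqk : qc c' * (4 * 4 ^ k) = 1 := by
      rw [hk]
      unfold qc
      rw [pow_succ]
      have : (1 / 4 : ℝ) ^ k * 4 ^ k = 1 := by rw [← mul_pow]; norm_num
      calc (1 / 4 : ℝ) ^ k * (1 / 4) * (4 * 4 ^ k) = (1 / 4 : ℝ) ^ k * 4 ^ k := by ring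
        _ = 1 := this
    have hn2 : Real.negMulLog y = y * (-Real.log y) := by unfold Real.negMulLog; ring
    have h5 : y ≤ 4 * qc c' * Real.negMulLog y := by
      rw [hn2]
      have h6 : y * 4 ^ k ≤ y * (-Real.log y) := mul_le_mul_of_nonneg_left hlog hy
      have h7 : 0 ≤ 4 * qc c' := by have := qc_nonneg c'; linarith
      calc y = (qc c' * (4 * 4 ^ k)) * y := by rw [hqk, one_mul]
        _ = 4 * qc c' * (y * 4 ^ k) := by ring
        _ ≤ _ := mul_le_mul_of_nonneg_left h6 h7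
    have h8 : hq (qc c') y ≤ 5 * qc c' * Real.negMulLog y := by
      unfold hq
      linarith
    -- `qc c' ≤ 4 (1/4)^j qc c`
    have h9 : qc c' ≤ 4 * (1 / 4) ^ j * qc c := by
      have h10 : c + j ≤ c' + 1 := by omega
      have h11 := qc_anti h10
      unfold qc at h11 ⊢
      rw [pow_succ, pow_add] at h11
      linarith
    have h12 : qc c * Real.negMulLog y ≤ hq (qc c) y := by
      unfold hq
      linarith
    calc hq (qc c') y ≤ 5 * qc c' * Real.negMulLog y := h8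
      _ ≤ 5 * (4 * (1 / 4) ^ j * qc c) * Real.negMulLog y := by gcongr
      _ = 20 * (1 / 4) ^ j * (qc c * Real.negMulLog y) := by ring
      _ ≤ _ := mul_le_mul_of_nonneg_left h12 (by positivity)

/-- at the threshold of its own class -/
lemma hq_case_b (k : ℕ) : hq (qc (k + 1)) (2 * thr k) ≤ 2 * (2 * thr k) := by
  have ht := thr_pos k
  have h1 : hq (qc (k + 1)) (2 * thr k)
      = 2 * thr k * (1 + qc (k + 1) * (-Real.log (2 * thr k))) := by
    unfold hq Real.negMulLog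
    ring
  rw [h1, log_two_thr, mul_comm 2 (2 * thr k)]
  apply mul_le_mul_of_nonneg_left _ (by positivity)
  have h5 : Real.log 5 ≤ 4 := by
    have h2 := Real.log_le_sub_one_of_pos (show (0 : ℝ) < 5 by norm_num)
    linarith
  have hq1 : qc (k + 1) * 4 ^ k = 1 / 4 := by
    unfold qc
    rw [pow_succ]
    have : (1 / 4 : ℝ) ^ k * 4 ^ k = 1 := by rw [← mul_pow]; norm_num
    calc (1 / 4 : ℝ) ^ k * (1 / 4) * 4 ^ k = ((1 / 4 : ℝ) ^ k * 4 ^ k) * (1 / 4) := by ring
      _ = 1 / 4 := by rw [this]; norm_num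
  have hq2 : qc (k + 1) ≤ 1 / 4 := by
    have := qc_anti (show 1 ≤ k + 1 by omega)
    have e : qc 1 = 1 / 4 := by simp [qc]
    linarith
  have hq0 := qc_nonneg (k + 1)
  have h6 : qc (k + 1) * (4 ^ k - 1 + Real.log 5) ≤ 1 / 4 + 1 / 4 * 3 := by
    have h7 : qc (k + 1) * (4 ^ k - 1 + Real.log 5)
        = qc (k + 1) * 4 ^ k + qc (k + 1) * (Real.log 5 - 1) := by ring
    rw [h7, hq1]
    have h8 : qc (k + 1) * (Real.log 5 - 1) ≤ 1 / 4 * 3 := by
      have h9 := log_five_ge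
      exact mul_le_mul hq2 (by linarith) (by linarith) (by norm_num)
    linarith
  linarith

lemma thr_succ_le (k : ℕ) : thr (k + 1) ≤ Real.exp (-3) * thr k := by
  unfold thr
  rw [← mul_div_assoc, ← Real.exp_add]
  apply div_le_div_of_nonneg_right _ (by norm_num)
  apply Real.exp_le_exp.mpr
  have : (1 : ℝ) ≤ 4 ^ k := one_le_pow₀ (by norm_num)
  rw [pow_succ]
  linarith

lemma exp_neg_three_lt : Real.exp (-3) < 1 := by
  rw [← Real.exp_zero]
  exact Real.exp_lt_exp.mpr (by norm_num)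

/-- the constant of (G3) -/
noncomputable def cG3 (s : ℝ) : ℝ :=
  20 ^ s / (1 - (1 / 4) ^ s) + 2 ^ s / (1 - Real.exp (-3) ^ s)

lemma cG3_pos {s : ℝ} (hs : 0 < s) : 0 < cG3 s := by
  have h1 : (1 / 4 : ℝ) ^ s < 1 := Real.rpow_lt_one (by norm_num) (by norm_num) hs
  have h2 : Real.exp (-3) ^ s < 1 :=
    Real.rpow_lt_one (Real.exp_pos _).le exp_neg_three_lt hs
  unfold cG3
  apply add_pos <;> apply div_pos (by positivity) (by linarith)

/-- threshold of class `c` in the sums: nothing for class `0`, `2 thr (c - 1)` for `c ≥ 1` -/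
noncomputable def tt : ℕ → ℝ
  | 0 => 1
  | (k + 1) => 2 * thr k

lemma tt_pos (c : ℕ) : 0 < tt c := by
  cases c with
  | zero => exact one_pos
  | succ k => have := thr_pos k; show 0 < 2 * thr k; linarith

lemma tt_le_one (c : ℕ) : tt c ≤ 1 := by
  cases c with
  | zero => exact le_rfl
  | succ k => have := thr_le k; show 2 * thr k ≤ 1; linarith

/-- the terms above their own threshold -/
noncomputable def bb (s y : ℝ) : ℕ → ℝ
  | 0 => 0
  | (k + 1) => if (2 * thr k) ^ s ≤ y ^ s then 2 ^ s * (2 * thr k) ^ s else 0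

lemma bb_nonneg (s y : ℝ) (c : ℕ) : 0 ≤ bb s y c := by
  cases c with
  | zero => exact le_rfl
  | succ k =>
    have ht := thr_pos k
    show 0 ≤ if (2 * thr k) ^ s ≤ y ^ s then 2 ^ s * (2 * thr k) ^ s else 0
    split_ifs
    · positivity
    · exact le_rfl

/-- one term of (G3) -/
lemma g3_term {s : ℝ} (hs : 0 < s) {y : ℝ} (hy : 0 ≤ y) (hy1 : y ≤ 1) {c j c' : ℕ}
    (hc : c' = c - 1 + j) :
    hq (qc c') (min y (tt c')) ^ s ≤ 20 ^ s * ((1 / 4) ^ s) ^ j * hq (qc c) y ^ s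
      + bb s y c' := by
  have hhy : 0 ≤ hq (qc c) y := hq_nonneg (qc_nonneg c) hy hy1
  -- case A
  have hA : (c' = 0 ∨ ∃ k, c' = k + 1 ∧ y ≤ 2 * thr k) →
      hq (qc c') (min y (tt c')) ^ s ≤ 20 ^ s * ((1 / 4) ^ s) ^ j * hq (qc c) y ^ s := by
    intro h
    have h1 : min y (tt c') = y := by
      apply min_eq_left
      rcases h with h | ⟨k, hk, hyk⟩
      · rw [h]; exact hy1
      · rw [hk]; exact hyk
    rw [h1]
    have h2 := hq_case_a hy hy1 hc h
    have h3 : 0 ≤ hq (qc c') y := hq_nonneg (qc_nonneg c') hy hy1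
    calc hq (qc c') y ^ s ≤ (20 * (1 / 4) ^ j * hq (qc c) y) ^ s :=
          Real.rpow_le_rpow h3 h2 hs.le
      _ = _ := by
          rw [Real.mul_rpow (by positivity) hhy, Real.mul_rpow (by norm_num) (by positivity)]
          congr 2
          rw [← Real.rpow_natCast, ← Real.rpow_natCast, ← Real.rpow_mul (by norm_num),
            ← Real.rpow_mul (by norm_num), mul_comm]
  cases c' with
  | zero =>
    show _ ≤ _ + 0
    rw [add_zero]
    exact hA (Or.inl rfl)
  | succ k =>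
    have ht := thr_pos k
    by_cases h : y ≤ 2 * thr k
    · have h1 := hA (Or.inr ⟨k, rfl, h⟩)
      have h2 := bb_nonneg s y (k + 1)
      linarith
    · have hlt := (not_le.mp h).le
      have h1 : min y (tt (k + 1)) = 2 * thr k := min_eq_right hlt
      rw [h1]
      have h2 : (2 * thr k) ^ s ≤ y ^ s := Real.rpow_le_rpow (by positivity) hlt hs.le
      have hb : bb s y (k + 1) = 2 ^ s * (2 * thr k) ^ s := if_pos h2
      rw [hb, ← Real.mul_rpow (by norm_num) (by positivity)]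
      have h3 : hq (qc (k + 1)) (2 * thr k) ^ s ≤ (2 * (2 * thr k)) ^ s := by
        apply Real.rpow_le_rpow _ (hq_case_b k) hs.le
        apply hq_nonneg (qc_nonneg _) (by positivity)
        have := thr_le k
        linarith
      have h4 : 0 ≤ 20 ^ s * ((1 / 4 : ℝ) ^ s) ^ j * hq (qc c) y ^ s := by
        have := Real.rpow_nonneg hhy s
        positivity
      linarith

/-- **(G3), real form** -/
theorem g3_real {s : ℝ} (hs : 0 < s) {y : ℝ} (hy : 0 ≤ y) (hy1 : y ≤ 1) (c n : ℕ) :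
    ∑ c' ∈ Finset.Ico (c - 1) n, hq (qc c') (min y (tt c')) ^ s ≤ cG3 s * hq (qc c) y ^ s := by
  have hhy : 0 ≤ hq (qc c) y := hq_nonneg (qc_nonneg c) hy hy1
  have hhs : 0 ≤ hq (qc c) y ^ s := Real.rpow_nonneg hhy s
  have hB0 : ∀ c', 0 ≤ bb s y c' := bb_nonneg s y
  have hr1 : (1 / 4 : ℝ) ^ s < 1 := Real.rpow_lt_one (by norm_num) (by norm_num) hs
  have hr2 : Real.exp (-3) ^ s < 1 :=
    Real.rpow_lt_one (Real.exp_pos _).le exp_neg_three_lt hs
  -- first part
  have h1 : ∑ c' ∈ Finset.Ico (c - 1) n, hq (qc c') (min y (tt c')) ^ s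
      ≤ ∑ j ∈ Finset.range (n - (c - 1)), 20 ^ s * ((1 / 4) ^ s) ^ j * hq (qc c) y ^ s
        + ∑ c' ∈ Finset.range n, bb s y c' := by
    rw [Finset.sum_Ico_eq_sum_range]
    calc ∑ j ∈ Finset.range (n - (c - 1)), hq (qc (c - 1 + j)) (min y (tt (c - 1 + j))) ^ s
        ≤ ∑ j ∈ Finset.range (n - (c - 1)), (20 ^ s * ((1 / 4) ^ s) ^ j * hq (qc c) y ^ s
            + bb s y (c - 1 + j)) := Finset.sum_le_sum fun j _ => g3_term hs hy hy1 rfl
      _ = ∑ j ∈ Finset.range (n - (c - 1)), 20 ^ s * ((1 / 4) ^ s) ^ j * hq (qc c) y ^ s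
            + ∑ c' ∈ Finset.Ico (c - 1) n, bb s y c' := by
          rw [Finset.sum_add_distrib, Finset.sum_Ico_eq_sum_range (bb s y)]
      _ ≤ _ := by
          apply add_le_add_right
          apply Finset.sum_le_sum_of_subset_of_nonneg
          · intro i hi
            rw [Finset.mem_Ico] at hi
            exact Finset.mem_range.mpr hi.2
          · intro i _ _
            exact hB0 i
  have h2 : ∑ j ∈ Finset.range (n - (c - 1)), 20 ^ s * ((1 / 4 : ℝ) ^ s) ^ j * hq (qc c) y ^ s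
      ≤ 20 ^ s / (1 - (1 / 4) ^ s) * hq (qc c) y ^ s := by
    rw [← Finset.sum_mul, ← Finset.mul_sum, div_eq_mul_inv]
    apply mul_le_mul_of_nonneg_right _ hhs
    apply mul_le_mul_of_nonneg_left _ (by positivity)
    have h3 := (summable_geometric_of_lt_one (r := (1 / 4 : ℝ) ^ s) (by positivity) hr1).sum_le_tsum
      (Finset.range (n - (c - 1))) (fun i _ => by positivity)
    rwa [tsum_geometric_of_lt_one (by positivity) hr1] at h3
  have h3 : ∑ c' ∈ Finset.range n, bb s y c' ≤ 2 ^ s / (1 - Real.exp (-3) ^ s) * hq (qc c) y ^ s := by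
    have h4 : ∑ c' ∈ Finset.range n, bb s y c' ≤ ∑ k ∈ Finset.range n, bb s y (k + 1) := by
      have h5 := Finset.sum_range_succ' (bb s y) n
      have h6 := Finset.sum_range_succ (bb s y) n
      have h7 : bb s y 0 = 0 := rfl
      have := hB0 n
      linarith
    refine h4.trans ?_
    have h5 : ∀ k, bb s y (k + 1) = 2 ^ s * (if (2 * thr k) ^ s ≤ y ^ s then (2 * thr k) ^ s else 0) := by
      intro k
      show (if (2 * thr k) ^ s ≤ y ^ s then 2 ^ s * (2 * thr k) ^ s else 0) = _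
      split_ifs <;> simp
    simp_rw [h5]
    rw [← Finset.mul_sum]
    have h6 := geo_filter (f := fun k => (2 * thr k) ^ s) (r := Real.exp (-3) ^ s) (Y := y ^ s)
      (fun k => by have := thr_pos k; positivity) (by positivity) hr2
      (fun k => by
        have ht := thr_pos k
        have ht' := thr_pos (k + 1)
        show (2 * thr (k + 1)) ^ s ≤ Real.exp (-3) ^ s * (2 * thr k) ^ s
        rw [← Real.mul_rpow (Real.exp_pos _).le (by positivity)]
        apply Real.rpow_le_rpow (by positivity) _ hs.le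
        have := thr_succ_le k
        linarith) (Real.rpow_nonneg hy s) n
    have h7 : 0 ≤ min (y ^ s) ((2 * thr n) ^ s) / (1 - Real.exp (-3) ^ s) := by
      apply div_nonneg _ (by linarith)
      apply le_min (Real.rpow_nonneg hy s)
      have := thr_pos n
      positivity
    have h8 : (∑ k ∈ Finset.range n, if (2 * thr k) ^ s ≤ y ^ s then (2 * thr k) ^ s else 0)
        ≤ y ^ s / (1 - Real.exp (-3) ^ s) := by
      linarith
    have h9 : y ^ s ≤ hq (qc c) y ^ s :=
      Real.rpow_le_rpow hy (le_hq (qc_nonneg c) hy hy1) hs.le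
    have h1r : 0 < 1 - Real.exp (-3) ^ s := by linarith
    calc 2 ^ s * ∑ k ∈ Finset.range n, (if (2 * thr k) ^ s ≤ y ^ s then (2 * thr k) ^ s else 0)
        ≤ 2 ^ s * (y ^ s / (1 - Real.exp (-3) ^ s)) :=
          mul_le_mul_of_nonneg_left h8 (by positivity)
      _ = 2 ^ s / (1 - Real.exp (-3) ^ s) * y ^ s := by ring
      _ ≤ _ := mul_le_mul_of_nonneg_left h9 (by positivity)
  unfold cG3
  rw [add_mul]
  linarith

/-- the functional at a real argument -/
lemma Gc_ofReal (c : ℕ) {s y : ℝ} (hs : 0 ≤ s) (hy : 0 ≤ y) (hy1 : y ≤ 1) :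
    Gc c s (ENNReal.ofReal y) = ENNReal.ofReal (hq (qc c) y ^ s) := by
  unfold Gc Gq Hq
  rw [min_eq_left (ENNReal.ofReal_le_one.mpr hy1), ENNReal.toReal_ofReal hy,
    ENNReal.ofReal_rpow_of_nonneg (hq_nonneg (qc_nonneg c) hy hy1) hs]

/-- **(G3)**: the classes `≥ c - 1`, each cut at twice its threshold, sum to `C G_c` -/
theorem g3 {s : ℝ} (hs : 0 < s) (y : ℝ≥0∞) (c n : ℕ) :
    ∑ c' ∈ Finset.Ico (c - 1) n, Gc c' s (min y (ENNReal.ofReal (tt c')))
      ≤ ENNReal.ofReal (cG3 s) * Gc c s y := by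
  have e0 : Gc c s y = Gc c s (ENNReal.ofReal (min y 1).toReal) := by
    rw [ENNReal.ofReal_toReal (min_ne_top y)]
    exact (Gq_min _ _ _).symm
  have e1 : ∀ c', Gc c' s (min y (ENNReal.ofReal (tt c')))
      = ENNReal.ofReal (hq (qc c') (min (min y 1).toReal (tt c')) ^ s) := by
    intro c'
    have h1 : ENNReal.ofReal (tt c') ≤ 1 := ENNReal.ofReal_le_one.mpr (tt_le_one c')
    have h2 : min y (ENNReal.ofReal (tt c')) = ENNReal.ofReal (min (min y 1).toReal (tt c')) := by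
      have h3 : min y (ENNReal.ofReal (tt c')) = min (min y 1) (ENNReal.ofReal (tt c')) := by
        rw [min_assoc, min_eq_right h1]
      rw [h3]
      nth_rewrite 1 [← ENNReal.ofReal_toReal (min_ne_top y)]
      rw [ENNReal.ofReal_min]
    rw [h2, Gc_ofReal c' hs.le (le_min ENNReal.toReal_nonneg (tt_pos c').le)
      ((min_le_left _ _).trans (min_toReal_le y))]
  have hy0 : 0 ≤ (min y 1).toReal := ENNReal.toReal_nonneg
  have hy1 := min_toReal_le y
  rw [e0, Gc_ofReal c hs.le hy0 hy1]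
  simp_rw [e1]
  rw [← ENNReal.ofReal_sum_of_nonneg (fun c' _ => Real.rpow_nonneg (hq_nonneg (qc_nonneg c')
    (le_min hy0 (tt_pos c').le) ((min_le_left _ _).trans hy1)) s),
    ← ENNReal.ofReal_mul (cG3_pos hs).le]
  exact ENNReal.ofReal_le_ofReal (g3_real hs hy0 hy1 c n)

/-- (G3), all classes against class `0` -/
theorem g3_zero {s : ℝ} (hs : 0 < s) (y : ℝ≥0∞) (n : ℕ) :
    ∑ c' ∈ Finset.range n, Gc c' s (min y (ENNReal.ofReal (tt c')))
      ≤ ENNReal.ofReal (cG3 s) * Gc 0 s y := by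
  have h := g3 hs y 0 n
  rwa [Nat.zero_sub, Nat.Ico_zero_eq_range] at h

/-! ### the end comparison -/

lemma log_forty : Real.log 40 ≤ 4 := by
  rw [Real.log_le_iff_le_exp (by norm_num)]
  have h5 : (2.7182818283 : ℝ) ≤ Real.exp 1 := Real.exp_one_gt_d9.le
  have h6 : Real.exp 4 = Real.exp 1 ^ 4 := by rw [← Real.exp_nat_mul]; norm_num
  rw [h6]
  calc (40:ℝ) ≤ 2.7182818283 ^ 4 := by norm_num
    _ ≤ _ := pow_le_pow_left₀ (by norm_num) h5 4

/-- above a quarter of the threshold of the class the logarithm is harmless -/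
lemma hq_le_of_thr {c : ℕ} {D : ℝ} (h : thr c / 4 ≤ D) : hq (qc c) D ≤ 6 * D := by
  have ht := thr_pos c
  have hD0 : 0 < D := by linarith
  have h1 : hq (qc c) D = D * (1 + qc c * (-Real.log D)) := by
    unfold hq Real.negMulLog
    ring
  have h2 : Real.log (thr c / 4) ≤ Real.log D := Real.log_le_log (by linarith) h
  have h3 : Real.log (thr c / 4) = 1 - 4 ^ c - Real.log 40 := by
    unfold thr
    rw [div_div, Real.log_div (Real.exp_pos _).ne' (by norm_num), Real.log_exp]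
    norm_num
  have h4 := log_forty
  have h5 : -Real.log D ≤ 4 ^ c + 3 := by linarith
  have hq0 := qc_nonneg c
  have h6 : qc c * 4 ^ c = 1 := by
    unfold qc
    rw [← mul_pow]; norm_num
  have h7 : qc c * (-Real.log D) ≤ 4 := by
    calc qc c * (-Real.log D) ≤ qc c * (4 ^ c + 3) := mul_le_mul_of_nonneg_left h5 hq0
      _ = 1 + 3 * qc c := by rw [mul_add, h6]; ring
      _ ≤ 4 := by have := qc_le_one c; linarith
  rw [h1]
  nlinarith

/-- `t^(s/2) sqrt(1 - log t) ≤ 1/s` -/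
lemma pow_sqrt_log {s t : ℝ} (hs : 0 < s) (hs1 : s ≤ 1) (ht : 0 < t) (ht1 : t ≤ 1) :
    Real.sqrt t ^ s * Real.sqrt (1 - Real.log t) ≤ 1 / s := by
  have hts : 0 < t ^ s := Real.rpow_pos_of_pos ht s
  have hts1 : t ^ s ≤ 1 := Real.rpow_le_one ht.le ht1 hs.le
  have hlt : 0 ≤ -Real.log t := by
    have := Real.log_nonpos ht.le ht1
    linarith
  have h1 : t ^ s * (1 - Real.log t) ≤ 1 / s := by
    have h2 : 1 - (t ^ s)⁻¹ ≤ Real.log (t ^ s) := Real.one_sub_inv_le_log_of_pos hts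
    rw [Real.log_rpow ht] at h2
    have h3 : t ^ s * (1 - (t ^ s)⁻¹) ≤ t ^ s * (s * Real.log t) :=
      mul_le_mul_of_nonneg_left h2 hts.le
    have h4 : t ^ s * (1 - (t ^ s)⁻¹) = t ^ s - 1 := by
      rw [mul_sub, mul_one, mul_inv_cancel₀ hts.ne']
    rw [le_div_iff₀ hs]
    nlinarith
  have h2 : Real.sqrt t ^ s = Real.sqrt (t ^ s) := by
    rw [Real.sqrt_eq_rpow, Real.sqrt_eq_rpow, ← Real.rpow_mul ht.le, ← Real.rpow_mul ht.le,
      mul_comm]
  rw [h2, ← Real.sqrt_mul hts.le]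
  apply Real.sqrt_le_iff.mpr
  refine ⟨by positivity, h1.trans ?_⟩
  have h3 : 1 ≤ 1 / s := by rw [le_div_iff₀ hs]; linarith
  nlinarith

/-- the constant of the end comparison -/
noncomputable def cEnd (s : ℝ) : ℝ := 12 ^ s / s

/-- **end comparison**, real form -/
theorem end_real {s : ℝ} (hs : 0 < s) (hs1 : s ≤ 1) {y D : ℝ} (hy : 0 ≤ y) (hyD : y ≤ D)
    (hD1 : D ≤ 1) {c : ℕ} (h : thr c / 4 ≤ D) :
    Real.sqrt (1 - Real.log y) * hq (qc c) y ^ s
      ≤ cEnd s * (D ^ s * Real.sqrt (1 - Real.log D)) := by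
  have htc := thr_pos c
  have hD0 : 0 < D := by linarith
  rcases hy.eq_or_lt with h0 | h0
  · rw [← h0, hq_zero, Real.zero_rpow hs.ne', mul_zero]
    unfold cEnd
    positivity
  set t := y / D with ht
  have ht0 : 0 < t := div_pos h0 hD0
  have ht1 : t ≤ 1 := (div_le_one hD0).mpr hyD
  have e : y = t * D := by rw [ht]; field_simp
  have hlD : Real.log D ≤ 0 := Real.log_nonpos hD0.le hD1
  have hlt : Real.log t ≤ 0 := Real.log_nonpos ht0.le ht1
  have h1 : Real.sqrt (1 - Real.log y) ≤ Real.sqrt (1 - Real.log t) * Real.sqrt (1 - Real.log D) := by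
    rw [← Real.sqrt_mul (by linarith), e, Real.log_mul ht0.ne' hD0.ne']
    apply Real.sqrt_le_sqrt
    nlinarith [mul_nonneg (neg_nonneg.mpr hlD) (neg_nonneg.mpr hlt)]
  have h2 : hq (qc c) y ≤ 12 * Real.sqrt t * D := by
    rw [e]
    calc hq (qc c) (t * D) ≤ 2 * Real.sqrt t * hq (qc c) D :=
          hq_ratio (qc_nonneg c) (qc_le_one c) hD0.le hD1 ht0.le ht1
      _ ≤ 2 * Real.sqrt t * (6 * D) :=
          mul_le_mul_of_nonneg_left (hq_le_of_thr h) (by positivity)
      _ = _ := by ring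
  have h3 : hq (qc c) y ^ s ≤ 12 ^ s * Real.sqrt t ^ s * D ^ s := by
    calc hq (qc c) y ^ s ≤ (12 * Real.sqrt t * D) ^ s :=
          Real.rpow_le_rpow (hq_nonneg (qc_nonneg c) hy (hyD.trans hD1)) h2 hs.le
      _ = _ := by
          rw [Real.mul_rpow (by positivity) hD0.le, Real.mul_rpow (by norm_num) (Real.sqrt_nonneg _)]
  have h4 := pow_sqrt_log hs hs1 ht0 ht1
  calc Real.sqrt (1 - Real.log y) * hq (qc c) y ^ s
      ≤ (Real.sqrt (1 - Real.log t) * Real.sqrt (1 - Real.log D))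
        * (12 ^ s * Real.sqrt t ^ s * D ^ s) :=
        mul_le_mul h1 h3 (Real.rpow_nonneg (hq_nonneg (qc_nonneg c) hy (hyD.trans hD1)) s)
          (by positivity)
    _ = 12 ^ s * (Real.sqrt t ^ s * Real.sqrt (1 - Real.log t))
        * (D ^ s * Real.sqrt (1 - Real.log D)) := by ring
    _ ≤ 12 ^ s * (1 / s) * (D ^ s * Real.sqrt (1 - Real.log D)) := by
        apply mul_le_mul_of_nonneg_right _ (by positivity)
        exact mul_le_mul_of_nonneg_left h4 (by positivity)
    _ = _ := by unfold cEnd; ring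

/-- **layer sum at the block maximum**: if `y ≤ D`, `D ≥ thr c / 4`, then
`PsiG_c y ≤ C D^s sqrt(1 - log D)`. -/
theorem PsiG_end {s : ℝ} (hs : 0 < s) (hs1 : s ≤ 1) {D : ℝ} (hD1 : D ≤ 1) {c : ℕ}
    (h : thr c / 4 ≤ D) {y : ℝ≥0∞} (hy : y ≤ ENNReal.ofReal D) :
    PsiG (qc c) s y ≤ ENNReal.ofReal ((3 + cPs s) * cEnd s * (D ^ s * Real.sqrt (1 - Real.log D))) := by
  have htc := thr_pos c
  have hD0 : 0 < D := by linarith
  have hyt : y ≠ ⊤ := ne_top_of_le_ne_top ENNReal.ofReal_ne_top hy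
  have hyr : y.toReal ≤ D := ENNReal.toReal_le_of_le_ofReal hD0.le hy
  have e : y = ENNReal.ofReal y.toReal := (ENNReal.ofReal_toReal hyt).symm
  have h1 := PsiG_le_sqrt (qc_nonneg c) (qc_le_one c) hs (D := y.toReal) ENNReal.toReal_nonneg
    (hyr.trans hD1)
  rw [← e] at h1
  refine h1.trans ?_
  have h2 : Gq (qc c) s y = ENNReal.ofReal (hq (qc c) y.toReal ^ s) := by
    have := Gc_ofReal c (s := s) (y := y.toReal) hs.le ENNReal.toReal_nonneg (hyr.trans hD1)
    rw [← e] at this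
    exact this
  have hc := cPs_pos hs
  rw [h2, ← ENNReal.ofReal_mul (by positivity)]
  apply ENNReal.ofReal_le_ofReal
  have h3 := end_real hs hs1 ENNReal.toReal_nonneg hyr hD1 h
  calc (3 + cPs s) * Real.sqrt (1 - Real.log y.toReal) * hq (qc c) y.toReal ^ s
      = (3 + cPs s) * (Real.sqrt (1 - Real.log y.toReal) * hq (qc c) y.toReal ^ s) := by ring
    _ ≤ (3 + cPs s) * (cEnd s * (D ^ s * Real.sqrt (1 - Real.log D))) :=
        mul_le_mul_of_nonneg_left h3 (by positivity)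
    _ = _ := by ring

/-- doubling the argument: `PsiG (2 y) ≤ 2 PsiG y` -/
lemma PsiG_two {q s : ℝ} (hq0 : 0 ≤ q) (hq1 : q ≤ 1) (hs : 0 < s) (hs1 : s ≤ 1) (y : ℝ≥0∞) :
    PsiG q s (2 * y) ≤ 2 * PsiG q s y := by
  unfold PsiG
  rw [← ENNReal.tsum_mul_left]
  apply ENNReal.tsum_le_tsum
  intro m
  have h1 : min (2 * y) (H837.pg m) ≤ min y (H837.pg m) + min y (H837.pg m) := by
    rcases le_total y (H837.pg m) with h | h
    · rw [min_eq_left h]
      exact (min_le_left _ _).trans (by rw [two_mul])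
    · rw [min_eq_right h]
      exact (min_le_right _ _).trans le_self_add
  refine (Gq_mono hq0 hq1 hs.le h1).trans ((Gq_add_le hq0 hq1 hs hs1 _ _).trans ?_)
  rw [two_mul]

end Vale.Agent.P262.H998
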