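import Vale.Agent.P262.H998.Gc3

/-!
# P262: the layer sum `Psi s (2 D) ≤ C Y^s sqrt(1 - log Y)` for `D ≤ Y ≤ 1`
-/

set_option linter.all false

open MeasureTheory ProbabilityTheory Set
open scoped ENNReal RealInnerProductSpace Pointwise

namespace Vale.Agent.P262.H998

open Vale.Agent.P262.H395

lemma pg_le_one (m : ℕ) : H837.pg m ≤ 1 := prob_le_one

lemma Hq_zero_eq (y : ℝ≥0∞) : Hq 0 y = min y 1 := by
  unfold Hq hq
  rw [zero_mul, add_zero, ENNReal.ofReal_toReal (min_ne_top y)]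

/-- for `q = 0` the layer sum is 837's `Psi` -/
lemma PsiG_zero_eq (s : ℝ) (D : ℝ≥0∞) : PsiG 0 s D = H837.Psi s D := by
  unfold PsiG H837.Psi Gq
  congr 1
  funext m
  rw [Hq_zero_eq, min_assoc, min_eq_left (pg_le_one m)]

/-- the constant -/
noncomputable def cPsi (s : ℝ) : ℝ := 2 * (3 + cPs s) / s

lemma cPsi_pos {s : ℝ} (hs : 0 < s) : 0 < cPsi s := by
  have := cPs_pos hs
  unfold cPsi
  positivity

/-- **layer sum**, real right side -/
theorem Psi_two_le_real {s : ℝ} (hs : 0 < s) (hs1 : s ≤ 1) {D : ℝ≥0∞} {Y : ℝ} (hY0 : 0 ≤ Y)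
    (hY : Y ≤ 1) (hD : D ≤ ENNReal.ofReal Y) :
    H837.Psi s (2 * D) ≤ ENNReal.ofReal (cPsi s * (Y ^ s * Real.sqrt (1 - Real.log Y))) := by
  have hDt : D ≠ ⊤ := ne_top_of_le_ne_top ENNReal.ofReal_ne_top hD
  have hDr : D.toReal ≤ Y := ENNReal.toReal_le_of_le_ofReal hY0 hD
  have e : D = ENNReal.ofReal D.toReal := (ENNReal.ofReal_toReal hDt).symm
  have hc := cPs_pos hs
  rcases (ENNReal.toReal_nonneg (a := D)).eq_or_lt with h0 | h0
  · have hD0 : D = 0 := by rw [e, ← h0, ENNReal.ofReal_zero]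
    rw [hD0, mul_zero]
    unfold H837.Psi
    have h2 : ∀ m, min 0 (H837.pg m) ^ s = 0 := fun m => by
      rw [min_eq_left zero_le, ENNReal.zero_rpow_of_pos hs]
    simp only [h2, tsum_zero]
    exact zero_le
  have hYp : 0 < Y := lt_of_lt_of_le h0 hDr
  rw [← PsiG_zero_eq]
  refine (PsiG_two le_rfl zero_le_one hs hs1 D).trans ?_
  have h1 := PsiG_le_sqrt (q := 0) le_rfl zero_le_one hs (D := D.toReal) ENNReal.toReal_nonneg
    (hDr.trans hY)
  rw [← e] at h1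
  have hG : Gq 0 s D = ENNReal.ofReal (D.toReal ^ s) := by
    unfold Gq
    rw [Hq_zero_eq, min_eq_left (hD.trans (ENNReal.ofReal_le_one.mpr hY)),
      ← ENNReal.ofReal_rpow_of_nonneg ENNReal.toReal_nonneg hs.le, ← e]
  rw [hG, ← ENNReal.ofReal_mul (by positivity)] at h1
  refine (mul_le_mul_right h1 2).trans ?_
  have e2 : (2 : ℝ≥0∞) = ENNReal.ofReal 2 := by simp
  rw [e2, ← ENNReal.ofReal_mul (by norm_num)]
  apply ENNReal.ofReal_le_ofReal
  set t := D.toReal / Y with ht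
  have ht0 : 0 < t := div_pos h0 hYp
  have ht1 : t ≤ 1 := (div_le_one hYp).mpr hDr
  have hDt2 : D.toReal = t * Y := by rw [ht]; field_simp
  have hlY : Real.log Y ≤ 0 := Real.log_nonpos hYp.le hY
  have hlt : Real.log t ≤ 0 := Real.log_nonpos ht0.le ht1
  have h3 : Real.sqrt (1 - Real.log D.toReal)
      ≤ Real.sqrt (1 - Real.log t) * Real.sqrt (1 - Real.log Y) := by
    rw [← Real.sqrt_mul (by linarith), hDt2, Real.log_mul ht0.ne' hYp.ne']
    apply Real.sqrt_le_sqrt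
    nlinarith [mul_nonneg (neg_nonneg.mpr hlY) (neg_nonneg.mpr hlt)]
  have h4 := pow_sqrt_log hs hs1 ht0 ht1
  have h5 : t ^ s ≤ Real.sqrt t ^ s := by
    apply Real.rpow_le_rpow ht0.le _ hs.le
    have h6 := Real.sq_sqrt ht0.le
    have h7 := Real.sqrt_nonneg t
    have h8 : Real.sqrt t ≤ 1 := by
      rw [Real.sqrt_le_left zero_le_one]; simpa using ht1
    nlinarith
  have h9 : D.toReal ^ s = t ^ s * Y ^ s := by rw [hDt2, Real.mul_rpow ht0.le hYp.le]
  calc 2 * ((3 + cPs s) * Real.sqrt (1 - Real.log D.toReal) * D.toReal ^ s)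
      ≤ 2 * ((3 + cPs s) * (Real.sqrt (1 - Real.log t) * Real.sqrt (1 - Real.log Y))
          * (Real.sqrt t ^ s * Y ^ s)) := by
        rw [h9]
        gcongr
    _ = 2 * (3 + cPs s) * (Real.sqrt t ^ s * Real.sqrt (1 - Real.log t))
          * (Y ^ s * Real.sqrt (1 - Real.log Y)) := by ring
    _ ≤ 2 * (3 + cPs s) * (1 / s) * (Y ^ s * Real.sqrt (1 - Real.log Y)) := by
        gcongr
    _ = _ := by unfold cPsi; ring

/-- **layer sum**: `Psi s (2 D) ≤ C Y^s sqrt(1 - log Y)` for `D ≤ Y ≤ 1` -/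
theorem Psi_two_le {s : ℝ} (hs : 0 < s) (hs1 : s ≤ 1) {D Y : ℝ≥0∞} (hY : Y ≤ 1) (hD : D ≤ Y) :
    H837.Psi s (2 * D)
      ≤ ENNReal.ofReal (cPsi s) * (Y ^ s * ENNReal.ofReal (Real.sqrt (1 - Real.log Y.toReal))) := by
  have hYt : Y ≠ ⊤ := ne_top_of_le_ne_top ENNReal.one_ne_top hY
  have e : Y = ENNReal.ofReal Y.toReal := (ENNReal.ofReal_toReal hYt).symm
  have hY1 : Y.toReal ≤ 1 := by
    have := ENNReal.toReal_mono ENNReal.one_ne_top hY
    simpa using this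
  have h := Psi_two_le_real hs hs1 ENNReal.toReal_nonneg hY1 (D := D) (hD.trans (le_of_eq e))
  refine h.trans (le_of_eq ?_)
  rw [ENNReal.ofReal_mul (cPsi_pos hs).le, ENNReal.ofReal_mul (Real.rpow_nonneg ENNReal.toReal_nonneg s),
    ← ENNReal.ofReal_rpow_of_nonneg ENNReal.toReal_nonneg hs.le, ← e]

end Vale.Agent.P262.H998
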